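import Vale.Agent.Lib.P098.Sta.Fv0

/-!
# P098: minimality implies `|∇u| = 1` on the free boundary
-/

open MeasureTheory Set Filter Topology
open scoped ContDiff ENNReal NNReal

namespace Vale.Agent.P098

variable {d : ℕ} {u w : Ed d → ℝ} {U : Set (Ed d)}

/-- the level sets have volume at least proportional to the thickness -/
theorem shift_volume {L : ℝ≥0} (hL : LipschitzWith L u) {S : Set (Ed d)} (hS : Convex ℝ S)
    (hSf : volume S < ⊤) {p q : Ed d} {δ m : ℝ}
    (hm : ∀ x ∈ Metric.ball p δ, m ≤ u x) (hz : ∀ x ∈ Metric.ball p δ, u (x - q) ≤ 0)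
    (hS1 : Metric.ball p δ ⊆ S) (hS2 : ∀ x ∈ Metric.ball p δ, x - q ∈ S) {ℓ : ℝ} (hℓ0 : 0 ≤ ℓ)
    (hℓ : ℓ < m) (M : ℕ) (hM : 0 < M) :
    volume.real (Metric.ball p δ) ≤
      M * volume.real {x | x ∈ S ∧ ℓ < u x ∧ u x ≤ ℓ + L * ‖q‖ / M} := by
  set A : Set (Ed d) := {x | x ∈ S ∧ ℓ < u x ∧ u x ≤ ℓ + L * ‖q‖ / M} with hA
  have hMr : (0 : ℝ) < M := by exact_mod_cast hM
  have hAf : volume A < ⊤ := lt_of_le_of_lt (measure_mono fun x hx => hx.1) hSf
  have hcov : Metric.ball p δ ⊆ ⋃ j ∈ Finset.range M,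
      (fun x => x + (-(((j : ℕ) : ℝ) / M)) • q) ⁻¹' A := by
    intro x hx
    have hP : ∃ j : ℕ, u (x + (-((j : ℝ) / M)) • q) ≤ ℓ := by
      refine ⟨M, ?_⟩
      rw [div_self hMr.ne', neg_smul, one_smul, ← sub_eq_add_neg]
      exact (hz x hx).trans hℓ0
    classical
    set j₀ := Nat.find hP with hj₀
    have h1 : u (x + (-((j₀ : ℝ) / M)) • q) ≤ ℓ := Nat.find_spec hP
    have hj₀M : j₀ ≤ M := by
      apply Nat.find_min'
      rw [div_self hMr.ne', neg_smul, one_smul, ← sub_eq_add_neg]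
      exact (hz x hx).trans hℓ0
    have hj₀0 : j₀ ≠ 0 := by
      intro h0
      rw [h0] at h1
      simp only [Nat.cast_zero, zero_div, neg_zero, zero_smul, add_zero] at h1
      have := hm x hx
      linarith
    obtain ⟨j, hj⟩ := Nat.exists_eq_succ_of_ne_zero hj₀0
    have h2 : ¬ u (x + (-((j : ℝ) / M)) • q) ≤ ℓ := Nat.find_min hP (by omega)
    rw [mem_iUnion₂]
    refine ⟨j, Finset.mem_range.2 (by omega), ?_⟩
    refine ⟨?_, not_le.1 h2, ?_⟩
    · have hjM : (j : ℝ) / M ≤ 1 := by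
        rw [div_le_one hMr]
        exact_mod_cast (by omega : j ≤ M)
      have hj0 : 0 ≤ (j : ℝ) / M := by positivity
      have h3 := hS (hS1 hx) (hS2 x hx) (a := 1 - (j : ℝ) / M) (b := (j : ℝ) / M)
        (by linarith) hj0 (by ring)
      have e1 : (1 - (j : ℝ) / M) • x + ((j : ℝ) / M) • (x - q) =
          x + (-((j : ℝ) / M)) • q := by
        rw [sub_smul, one_smul, smul_sub, neg_smul]
        abel
      rwa [e1] at h3
    · have h3 := hL.dist_le_mul (x + (-((j : ℝ) / M)) • q) (x + (-((j₀ : ℝ) / M)) • q)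
      have e1 : dist (x + (-((j : ℝ) / M)) • q) (x + (-((j₀ : ℝ) / M)) • q) = ‖q‖ / M := by
        rw [dist_eq_norm]
        have e2 : x + (-((j : ℝ) / M)) • q - (x + (-((j₀ : ℝ) / M)) • q) =
            (1 / (M : ℝ)) • q := by
          rw [hj, add_sub_add_left_eq_sub, ← sub_smul]
          congr 1
          push_cast
          field_simp
          ring
        rw [e2, norm_smul, Real.norm_eq_abs, abs_of_pos (by positivity)]
        ring
      rw [e1, Real.dist_eq] at h3
      have h4 := (abs_le.1 h3).2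
      have e3 : (L : ℝ) * (‖q‖ / M) = L * ‖q‖ / M := by ring
      rw [e3] at h4
      linarith
  have hpre : ∀ j : ℕ, volume ((fun x => x + (-(((j : ℕ) : ℝ) / M)) • q) ⁻¹' A) =
      volume A := fun j => measure_preimage_add_right volume _ A
  calc volume.real (Metric.ball p δ) ≤ volume.real (⋃ j ∈ Finset.range M,
      (fun x => x + (-(((j : ℕ) : ℝ) / M)) • q) ⁻¹' A) := by
        refine measureReal_mono hcov ?_
        refine (lt_of_le_of_lt (measure_biUnion_finset_le _ _) ?_).ne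
        simp only [hpre]
        rw [Finset.sum_const, nsmul_eq_mul]
        exact ENNReal.mul_lt_top (by simp) hAf
    _ ≤ ∑ j ∈ Finset.range M, volume.real ((fun x => x + (-(((j : ℕ) : ℝ) / M)) • q) ⁻¹' A) :=
        measureReal_biUnion_finset_le _ _
    _ = M * volume.real A := by
        simp only [measureReal_def, hpre]
        rw [Finset.sum_const, Finset.card_range, nsmul_eq_mul]

/-- the derivative of `chi` is at least `1/2` on an interval -/
theorem exists_chi_deriv : ∃ a b : ℝ, 0 < a ∧ a < b ∧ ∀ s ∈ Icc a b, 1 / 2 ≤ deriv chi s := by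
  have hd : Differentiable ℝ chi := chi_contDiff.differentiable (by simp)
  obtain ⟨c, hc, hc2⟩ := exists_deriv_eq_slope chi (show (1 : ℝ) < 2 by norm_num)
    hd.continuous.continuousOn hd.differentiableOn
  rw [chi_one le_rfl, chi_zero le_rfl] at hc2
  have hc3 : deriv chi c = 1 := by
    rw [hc2]
    norm_num
  have hcont : Continuous (deriv chi) := chi_contDiff.continuous_deriv (by simp)
  have h1 : ∀ᶠ s in 𝓝 c, 1 / 2 < deriv chi s :=
    hcont.continuousAt.eventually (lt_mem_nhds (by rw [hc3]; norm_num))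
  obtain ⟨ρ, hρ, hρ2⟩ := Metric.eventually_nhds_iff_ball.1 h1
  refine ⟨c, c + ρ / 2, by linarith [hc.1], by linarith, fun s hs => ?_⟩
  refine (hρ2 s ?_).le
  rw [Metric.mem_ball, Real.dist_eq, abs_of_nonneg (by linarith [hs.1])]
  linarith [hs.2]

namespace Cone0

theorem w_zero (h : Cone0 u w U) {z : Ed d} (hz : z ∈ frontier (Pos u)) (hz0 : z ≠ 0) :
    w z = 0 := by
  rw [h.eq_closure (frontier_subset_closure hz) hz0, h.frontier_zero hz]

/-- a point near a free boundary point where `w` is negative -/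
theorem exists_neg (h : Cone0 u w U) {z : Ed d} (hz : z ∈ frontier (Pos u)) (hz0 : z ≠ 0)
    (hnd : fderiv ℝ w z ≠ 0) {r : ℝ} (hr : 0 < r) : ∃ y ∈ Metric.ball z r, w y < 0 ∧ y ∈ U := by
  have hzU := h.frontier_sub hz hz0
  have hw : HasFDerivAt w (fderiv ℝ w z) z :=
    ((h.smoothAt hzU).differentiableAt (by simp)).hasFDerivAt
  obtain ⟨e, he⟩ : ∃ e, fderiv ℝ w z e ≠ 0 := by
    by_contra hcon
    push Not at hcon
    exact hnd (ContinuousLinearMap.ext hcon)
  by_contra hcon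
  push Not at hcon
  have hmin : IsLocalMin w z := by
    filter_upwards [Metric.ball_mem_nhds z hr, h.isOpen.mem_nhds hzU] with y hy hyU
    rw [h.w_zero hz hz0]
    by_contra hneg
    exact hcon y hy (not_le.1 hneg) hyU
  rw [hmin.fderiv_eq_zero] at he
  simp at he

/-- volume of thin layers near a free boundary point -/
theorem layer (h : Cone0 u w U) {z : Ed d} (hz : z ∈ frontier (Pos u)) (hz0 : z ≠ 0)
    (hnd : fderiv ℝ w z ≠ 0) {r : ℝ} (hr : 0 < r) {a b : ℝ} (ha : 0 < a) (hab : a < b) :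
    ∃ c > 0, ∃ ε₀ > 0, ∀ ε : ℝ, 0 < ε → ε < ε₀ →
      c * ε ≤ volume.real {x | x ∈ Metric.ball z r ∧ a * ε < u x ∧ u x ≤ b * ε} := by
  obtain ⟨L, hL⟩ := h.lipschitz
  obtain ⟨y, hyb, hyn, hyU⟩ := h.exists_neg hz hz0 hnd hr
  obtain ⟨p, hpP, hpb⟩ : ∃ p ∈ Pos u, p ∈ Metric.ball z r := by
    obtain ⟨p, hp1, hp2⟩ := Metric.mem_closure_iff.1 (frontier_subset_closure hz) r hr
    exact ⟨p, hp1, by rw [Metric.mem_ball, dist_comm]; exact hp2⟩
  have hup : 0 < u p := hpP
  -- the balls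
  have h1 : ∀ᶠ x in 𝓝 p, u p / 2 < u x ∧ x ∈ Metric.ball z r :=
    (h.cont.continuousAt.eventually (lt_mem_nhds (by linarith))).and
      (Metric.isOpen_ball.mem_nhds hpb)
  have h2 : ∀ᶠ x in 𝓝 y, w x < 0 ∧ x ∈ Metric.ball z r :=
    ((h.smoothAt hyU).continuousAt.eventually (gt_mem_nhds hyn)).and
      (Metric.isOpen_ball.mem_nhds hyb)
  obtain ⟨δ₁, hδ₁, hb1⟩ := Metric.eventually_nhds_iff_ball.1 h1
  obtain ⟨δ₂, hδ₂, hb2⟩ := Metric.eventually_nhds_iff_ball.1 h2
  set δ := min δ₁ δ₂ with hδ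
  have hδ0 : 0 < δ := lt_min hδ₁ hδ₂
  set q := p - y with hq
  have hshift : ∀ x ∈ Metric.ball p δ, x - q ∈ Metric.ball y δ₂ := by
    intro x hx
    rw [Metric.mem_ball, dist_eq_norm] at hx ⊢
    have e1 : x - q - y = x - p := by
      rw [hq]
      abel
    rw [e1]
    exact lt_of_lt_of_le hx (min_le_right _ _)
  set V : ℝ := volume.real (Metric.ball p δ) with hV
  have hV0 : 0 < V := by
    rw [hV, measureReal_def]
    exact ENNReal.toReal_pos (Metric.measure_ball_pos volume p hδ0).ne'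
      measure_ball_lt_top.ne
  set C : ℝ := L * ‖q‖ / (b - a) + 1 with hC
  have hba : 0 < b - a := by linarith
  have hC0 : 0 < C := by positivity
  refine ⟨V / C, by positivity, min 1 (u p / 2 / a), by positivity, ?_⟩
  intro ε hε hε1
  have hε2 : ε < 1 := lt_of_lt_of_le hε1 (min_le_left _ _)
  have hε3 : a * ε < u p / 2 := by
    have h3 := lt_of_lt_of_le hε1 (min_le_right _ _)
    rw [lt_div_iff₀ ha] at h3
    linarith
  -- the number of steps
  set M : ℕ := ⌊L * ‖q‖ / ((b - a) * ε)⌋₊ + 1 with hM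
  have hM0 : 0 < M := by omega
  have hMr : (0 : ℝ) < M := by exact_mod_cast hM0
  have hx0 : 0 ≤ L * ‖q‖ / ((b - a) * ε) := by positivity
  have hM1 : L * ‖q‖ / ((b - a) * ε) ≤ M := by
    rw [hM]
    push_cast
    exact (Nat.lt_floor_add_one _).le
  have hM2 : (M : ℝ) * ε ≤ C := by
    have h3 : (M : ℝ) ≤ L * ‖q‖ / ((b - a) * ε) + 1 := by
      rw [hM]
      push_cast
      have := Nat.floor_le hx0
      linarith
    have h4 := mul_le_mul_of_nonneg_right h3 hε.le
    have e1 : (L * ‖q‖ / ((b - a) * ε) + 1) * ε = L * ‖q‖ / (b - a) + ε := by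
      field_simp
    rw [e1] at h4
    linarith
  have hM3 : L * ‖q‖ / M ≤ (b - a) * ε := by
    rw [div_le_iff₀ (by positivity)] at hM1
    rw [div_le_iff₀ hMr]
    linarith
  have key := shift_volume hL (convex_ball z r) measure_ball_lt_top (p := p) (q := q)
    (δ := δ) (m := u p / 2)
    (fun x hx => (hb1 x (Metric.ball_subset_ball (min_le_left _ _) hx)).1.le)
    (fun x hx => by
      have h3 := (hb2 _ (hshift x hx)).1
      have h4 : x - q ∉ Pos u := by
        intro h5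
        rw [h.eq _ h5] at h3
        exact absurd h5 (not_lt.2 h3.le)
      rw [h.eq_zero_of_notMem h4])
    (fun x hx => (hb1 x (Metric.ball_subset_ball (min_le_left _ _) hx)).2)
    (fun x hx => (hb2 _ (hshift x hx)).2) (ℓ := a * ε) (by positivity) hε3 M hM0
  have hsub : {x | x ∈ Metric.ball z r ∧ a * ε < u x ∧ u x ≤ a * ε + L * ‖q‖ / M} ⊆
      {x | x ∈ Metric.ball z r ∧ a * ε < u x ∧ u x ≤ b * ε} := by
    rintro x ⟨hx1, hx2, hx3⟩
    refine ⟨hx1, hx2, ?_⟩
    linarith
  have hmono : volume.real {x | x ∈ Metric.ball z r ∧ a * ε < u x ∧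
      u x ≤ a * ε + L * ‖q‖ / M} ≤
      volume.real {x | x ∈ Metric.ball z r ∧ a * ε < u x ∧ u x ≤ b * ε} := by
    refine measureReal_mono hsub ?_
    exact (lt_of_le_of_lt (measure_mono fun x hx => hx.1) measure_ball_lt_top).ne
  set X := volume.real {x | x ∈ Metric.ball z r ∧ a * ε < u x ∧ u x ≤ b * ε} with hX
  have h5 : V ≤ M * X := key.trans (mul_le_mul_of_nonneg_left hmono hMr.le)
  have hX0 : 0 ≤ X := measureReal_nonneg
  rw [div_mul_eq_mul_div, div_le_iff₀ hC0]
  calc V * ε ≤ M * X * ε := mul_le_mul_of_nonneg_right h5 hε.le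
    _ = X * (M * ε) := by ring
    _ ≤ X * C := mul_le_mul_of_nonneg_left hM2 hX0

end Cone0

end Vale.Agent.P098
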