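import Vale.Agent.Lib.P098.Sta.Fv0

/-!
# P098: the Hopf lemma
-/

open MeasureTheory Set Filter Topology
open scoped ContDiff ENNReal NNReal

namespace Vale.Agent.P098

variable {d : ℕ} {u w : Ed d → ℝ} {U : Set (Ed d)}

/-- at a local minimum the pure second derivatives are nonnegative -/
theorem pd_pd_nonneg {f : Ed d → ℝ} {x : Ed d} (hf : ContDiffAt ℝ ∞ f x) (hmin : IsLocalMin f x)
    (i : Fin d) : 0 ≤ pd i (pd i f) x := by
  by_contra hneg
  have hneg' : pd i (pd i f) x < 0 := not_le.1 hneg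
  set e : Ed d := EuclideanSpace.single i 1 with he
  set γ : ℝ → Ed d := fun t => x + t • e with hγ
  have hγc : Continuous γ := by
    rw [hγ]
    fun_prop
  have hγ0 : γ 0 = x := by simp [hγ]
  have hγd : ∀ t, HasDerivAt γ e t := by
    intro t
    have h1 : HasDerivAt (fun t : ℝ => t • e) ((1 : ℝ) • e) t := (hasDerivAt_id t).smul_const e
    rw [one_smul] at h1
    exact h1.const_add x
  have hdiff : ∀ᶠ t in 𝓝 (0 : ℝ), ContDiffAt ℝ 1 f (γ t) := by
    have h1 : ∀ᶠ y in 𝓝 x, ContDiffAt ℝ 1 f y :=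
      (hf.of_le (by simp) : ContDiffAt ℝ 1 f x).eventually (by simp)
    have h2 : Tendsto γ (𝓝 0) (𝓝 x) := by
      have := hγc.tendsto 0
      rwa [hγ0] at this
    exact h2.eventually h1
  have hg1 : ∀ t, DifferentiableAt ℝ f (γ t) → HasDerivAt (fun t => f (γ t)) (pd i f (γ t)) t := by
    intro t ht
    exact ht.hasFDerivAt.comp_hasDerivAt t (hγd t)
  have hder1 : deriv (fun t => f (γ t)) =ᶠ[𝓝 0] fun t => pd i f (γ t) := by
    filter_upwards [hdiff] with t ht
    exact (hg1 t (ht.differentiableAt (by simp))).deriv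
  have hpd : ContDiffAt ℝ ∞ (pd i f) x := contDiffAt_pd hf (by simp)
  have hder2 : deriv (deriv (fun t => f (γ t))) 0 = pd i (pd i f) x := by
    rw [hder1.deriv_eq]
    have h1 : DifferentiableAt ℝ (pd i f) (γ 0) := by
      rw [hγ0]
      exact hpd.differentiableAt (by simp)
    have h2 : HasDerivAt (fun t => pd i f (γ t)) (pd i (pd i f) (γ 0)) 0 :=
      h1.hasFDerivAt.comp_hasDerivAt 0 (hγd 0)
    rw [h2.deriv, hγ0]
  have hming : IsLocalMin (fun t => f (γ t)) 0 := by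
    have h2 : Tendsto γ (𝓝 0) (𝓝 x) := by
      have := hγc.tendsto 0
      rwa [hγ0] at this
    have h3 := h2.eventually hmin
    filter_upwards [h3] with t ht
    rw [hγ0]
    exact ht
  have hcont : ContinuousAt (fun t => f (γ t)) 0 :=
    (hg1 0 (by
      rw [hγ0]
      exact hf.differentiableAt (by simp))).continuousAt
  have hmax : IsLocalMax (fun t => f (γ t)) 0 :=
    isLocalMax_of_deriv_deriv_neg (by rw [hder2]; exact hneg') hming.deriv_eq_zero hcont
  have hconst : (fun t => f (γ t)) =ᶠ[𝓝 0] fun _ => f (γ 0) := by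
    filter_upwards [hming, hmax] with t h1 h2
    exact le_antisymm h2 h1
  have hd0 : deriv (fun t => f (γ t)) =ᶠ[𝓝 0] deriv fun _ => f (γ 0) := hconst.deriv
  have h4 : deriv (deriv (fun t => f (γ t))) 0 = 0 := by
    rw [hd0.deriv_eq]
    simp
  rw [hder2] at h4
  linarith

/-- the barrier `s + β s²` with `s = ρ² - |x - p|²` -/
noncomputable def sb (p : Ed d) (ρ : ℝ) (x : Ed d) : ℝ := ρ ^ 2 - ∑ j, (x j - p j) ^ 2

theorem sb_eq (p : Ed d) (ρ : ℝ) (x : Ed d) : sb p ρ x = ρ ^ 2 - ‖x - p‖ ^ 2 := by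
  unfold sb
  rw [EuclideanSpace.norm_sq_eq]
  congr 1
  refine Finset.sum_congr rfl fun j _ => ?_
  rw [Real.norm_eq_abs, sq_abs]
  rfl

theorem pd_coord (i j : Fin d) (x : Ed d) : pd i (fun y : Ed d => y j) x = if i = j then 1 else 0 := by
  have h1 : HasFDerivAt (fun y : Ed d => y j) (EuclideanSpace.proj j : Ed d →L[ℝ] ℝ) x :=
    (EuclideanSpace.proj j : Ed d →L[ℝ] ℝ).hasFDerivAt
  unfold pd
  rw [h1.fderiv]
  simp [EuclideanSpace.proj, eq_comm]

theorem diff_coord (j : Fin d) (x : Ed d) : DifferentiableAt ℝ (fun y : Ed d => y j) x :=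
  (EuclideanSpace.proj j : Ed d →L[ℝ] ℝ).differentiableAt

theorem pd_coord_sub (p : Ed d) (i j : Fin d) (x : Ed d) :
    pd i (fun y : Ed d => y j - p j) x = if i = j then 1 else 0 := by
  rw [pd_sub (diff_coord j x) (differentiableAt_const _), pd_const, sub_zero, pd_coord]

theorem sb_smooth (p : Ed d) (ρ : ℝ) : ContDiff ℝ ∞ (sb p ρ) := by
  unfold sb
  refine contDiff_const.sub (ContDiff.sum fun j _ => ?_)
  have h1 : ContDiff ℝ ∞ (fun y : Ed d => y j) :=
    (EuclideanSpace.proj j : Ed d →L[ℝ] ℝ).contDiff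
  exact (h1.sub contDiff_const).pow 2

theorem pd_sb (p : Ed d) (ρ : ℝ) (i : Fin d) (x : Ed d) :
    pd i (sb p ρ) x = -2 * (x i - p i) := by
  unfold sb
  have hd : ∀ j, DifferentiableAt ℝ (fun y : Ed d => (y j - p j) ^ 2) x := fun j =>
    ((diff_coord j x).sub_const _).pow 2
  rw [pd_sub (differentiableAt_const _) (DifferentiableAt.fun_sum fun j _ => hd j), pd_const,
    pd_sum _ _ fun j _ => hd j]
  have h1 : ∀ j, pd i (fun y : Ed d => (y j - p j) ^ 2) x =
      if i = j then 2 * (x j - p j) else 0 := by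
    intro j
    rw [pd_sq ((diff_coord j x).sub_const _), pd_coord_sub]
    split_ifs
    · ring
    · ring
  simp only [h1, Finset.sum_ite_eq, Finset.mem_univ, if_true]
  ring

/-- Laplacian of the barrier -/
theorem lap_barrier (p : Ed d) (ρ β : ℝ) (x : Ed d) :
    lap (fun y => sb p ρ y + β * sb p ρ y ^ 2) x =
      8 * β * ‖x - p‖ ^ 2 - 2 * d * (1 + 2 * β * sb p ρ x) := by
  have hs : ∀ y, DifferentiableAt ℝ (sb p ρ) y := fun y =>
    ((sb_smooth p ρ).differentiable (by simp)) y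
  have h1 : ∀ i, pd i (fun y => sb p ρ y + β * sb p ρ y ^ 2) =
      fun y => (-2 - 4 * β * sb p ρ y) * (y i - p i) := by
    intro i
    funext y
    have h2 : DifferentiableAt ℝ (fun y => sb p ρ y ^ 2) y := (hs y).pow 2
    rw [pd_add (hs y) (h2.const_mul β), pd_const_mul β h2, pd_sq (hs y), pd_sb]
    ring
  unfold lap
  have h3 : ∀ i, pd i (pd i (fun y => sb p ρ y + β * sb p ρ y ^ 2)) x =
      8 * β * (x i - p i) ^ 2 + (-2 - 4 * β * sb p ρ x) := by
    intro i
    rw [h1 i]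
    have h4 : DifferentiableAt ℝ (fun y => 4 * β * sb p ρ y) x := (hs x).const_mul _
    have h5 : DifferentiableAt ℝ (fun y => -2 - 4 * β * sb p ρ y) x :=
      (differentiableAt_const _).sub h4
    rw [pd_mul h5 ((diff_coord i x).sub_const _), pd_sub (differentiableAt_const _) h4, pd_const,
      pd_const_mul _ (hs x), pd_sb, pd_coord_sub, if_pos rfl]
    ring
  have h6 : ‖x - p‖ ^ 2 = ∑ i, (x i - p i) ^ 2 := by
    rw [EuclideanSpace.norm_sq_eq]
    refine Finset.sum_congr rfl fun j _ => ?_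
    rw [Real.norm_eq_abs, sq_abs]
    rfl
  simp only [h3, Finset.sum_add_distrib, ← Finset.mul_sum, ← h6]
  simp
  ring

namespace Cone0

/-- **Hopf lemma** at a free boundary point with an interior touching ball -/
theorem hopf (h : Cone0 u w U) (hharm : ∀ x ∈ Pos u, lap w x = 0) {p z : Ed d} {ρ : ℝ}
    (hρ : 0 < ρ) (hb : Metric.ball p ρ ⊆ Pos u) (hz : dist z p = ρ)
    (hzf : z ∈ frontier (Pos u)) (h0 : (0 : Ed d) ∉ Metric.closedBall p ρ) :
    fderiv ℝ w z ≠ 0 := by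
  have hz0 : z ≠ 0 := by
    rintro rfl
    exact h0 (by rw [Metric.mem_closedBall, hz])
  have hcb : Metric.closedBall p ρ ⊆ closure (Pos u) := by
    rw [← closure_ball p hρ.ne']
    exact closure_mono hb
  have hcU : Metric.closedBall p ρ ⊆ U := fun x hx =>
    h.sub ⟨hcb hx, fun e => h0 (e ▸ hx)⟩
  have hw0 : ∀ x ∈ Metric.closedBall p ρ, 0 ≤ w x := by
    intro x hx
    rw [h.eq_closure (hcb hx) (fun e => h0 (e ▸ hx))]
    exact h.nonneg x
  have hwc : ContinuousOn w (Metric.closedBall p ρ) := h.smooth.continuousOn.mono hcU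
  set θ : ℝ := ((d : ℝ) + 1) / (d + 2) with hθ
  have hd0 : (0 : ℝ) ≤ d := d.cast_nonneg
  have hθ0 : 0 < θ := by positivity
  have hθ1 : θ < 1 := by
    rw [hθ, div_lt_one (by positivity)]
    linarith
  set β : ℝ := ((d : ℝ) + 1) / ρ ^ 2 with hβ
  have hβ0 : 0 < β := by positivity
  have hβρ : β * ρ ^ 2 = d + 1 := by
    rw [hβ]
    field_simp
  -- the inner sphere
  set S : Set (Ed d) := {x | ‖x - p‖ ^ 2 = θ * ρ ^ 2} with hS
  have hSb : ∀ x ∈ S, x ∈ Metric.ball p ρ := by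
    intro x hx
    have hx' : ‖x - p‖ ^ 2 = θ * ρ ^ 2 := hx
    rw [Metric.mem_ball, dist_eq_norm]
    have h1 : ‖x - p‖ ^ 2 < ρ ^ 2 := by
      rw [hx']
      have : 0 < ρ ^ 2 := by positivity
      nlinarith
    exact lt_of_pow_lt_pow_left₀ 2 hρ.le h1
  have hcont : Continuous fun x : Ed d => ‖x - p‖ ^ 2 := by fun_prop
  have hSc : IsCompact S := by
    refine (isCompact_closedBall p ρ).of_isClosed_subset ?_ fun x hx =>
      Metric.ball_subset_closedBall (hSb x hx)
    exact isClosed_eq hcont continuous_const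
  obtain ⟨m, hm0, hmS⟩ : ∃ m : ℝ, 0 < m ∧ ∀ x ∈ S, m ≤ w x := by
    rcases S.eq_empty_or_nonempty with he | hne
    · exact ⟨1, one_pos, fun x hx => absurd hx (by rw [he]; exact notMem_empty x)⟩
    · obtain ⟨x0, hx0, hmin⟩ := hSc.exists_isMinOn hne
        (hwc.mono fun x hx => Metric.ball_subset_closedBall (hSb x hx))
      refine ⟨w x0, ?_, fun x hx => hmin hx⟩
      have hxP := hb (hSb x0 hx0)
      rw [h.eq x0 hxP]
      exact hxP
  set H : ℝ := ρ ^ 2 + β * ρ ^ 4 with hH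
  have hH0 : 0 < H := by positivity
  set ε : ℝ := m / H with hε
  have hε0 : 0 < ε := by positivity
  set b : Ed d → ℝ := fun y => sb p ρ y + β * sb p ρ y ^ 2 with hbdef
  have hbs : ContDiff ℝ ∞ b := (sb_smooth p ρ).add (contDiff_const.mul ((sb_smooth p ρ).pow 2))
  have hbH : ∀ x, ‖x - p‖ ^ 2 ≤ ρ ^ 2 → b x ≤ H := by
    intro x hx
    have h1 : sb p ρ x = ρ ^ 2 - ‖x - p‖ ^ 2 := sb_eq p ρ x
    have h2 : 0 ≤ ‖x - p‖ ^ 2 := sq_nonneg _
    have h3 : sb p ρ x ≤ ρ ^ 2 := by linarith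
    have h4 : 0 ≤ sb p ρ x := by linarith
    have h5 : sb p ρ x ^ 2 ≤ (ρ ^ 2) ^ 2 := pow_le_pow_left₀ h4 h3 2
    have h6 := mul_le_mul_of_nonneg_left h5 hβ0.le
    simp only [hbdef, hH]
    nlinarith
  -- the annulus
  set A : Set (Ed d) := {x | θ * ρ ^ 2 ≤ ‖x - p‖ ^ 2 ∧ ‖x - p‖ ^ 2 ≤ ρ ^ 2} with hA
  have hAcb : A ⊆ Metric.closedBall p ρ := by
    intro x hx
    rw [Metric.mem_closedBall, dist_eq_norm]
    exact le_of_sq_le_sq hx.2 hρ.le
  have hAc : IsCompact A := by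
    refine (isCompact_closedBall p ρ).of_isClosed_subset ?_ hAcb
    exact (isClosed_le continuous_const hcont).inter (isClosed_le hcont continuous_const)
  set f : Ed d → ℝ := fun x => w x - ε * b x with hf
  have hfc : ContinuousOn f A := (hwc.mono hAcb).sub
    (continuousOn_const.mul hbs.continuous.continuousOn)
  have hzn : ‖z - p‖ = ρ := by rw [← dist_eq_norm, hz]
  have hzA : z ∈ A := by
    refine ⟨?_, ?_⟩
    · rw [hzn]
      have : 0 < ρ ^ 2 := by positivity
      nlinarith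
    · rw [hzn]
  have hfpos : ∀ x ∈ A, 0 ≤ f x := by
    obtain ⟨x0, hx0, hmin⟩ := hAc.exists_isMinOn ⟨z, hzA⟩ hfc
    have hmin' : ∀ x ∈ A, f x0 ≤ f x := fun x hx => hmin hx
    suffices hx00 : 0 ≤ f x0 from fun x hx => hx00.trans (hmin' x hx)
    by_contra hneg
    have hneg' : f x0 < 0 := not_le.1 hneg
    rcases hx0.1.eq_or_lt with hin | hin
    · -- inner sphere
      have h1 := hmS x0 hin.symm
      have h2 := hbH x0 hx0.2
      have h3 : ε * b x0 ≤ m := by
        calc ε * b x0 ≤ ε * H := mul_le_mul_of_nonneg_left h2 hε0.le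
          _ = m := by rw [hε]; field_simp
      simp only [hf] at hneg'
      linarith
    rcases hx0.2.eq_or_lt with hout | hout
    · -- outer sphere
      have h1 : sb p ρ x0 = 0 := by rw [sb_eq, hout, sub_self]
      have h2 := hw0 x0 (hAcb hx0)
      simp only [hf, hbdef, h1] at hneg'
      norm_num at hneg'
      linarith
    -- interior
    have hx0b : x0 ∈ Metric.ball p ρ := by
      rw [Metric.mem_ball, dist_eq_norm]
      exact lt_of_pow_lt_pow_left₀ 2 hρ.le hout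
    have hx0P : x0 ∈ Pos u := hb hx0b
    have hnb : {x : Ed d | θ * ρ ^ 2 < ‖x - p‖ ^ 2 ∧ ‖x - p‖ ^ 2 < ρ ^ 2} ∈ 𝓝 x0 :=
      ((isOpen_lt continuous_const hcont).inter (isOpen_lt hcont continuous_const)).mem_nhds
        ⟨hin, hout⟩
    have hlm : IsLocalMin f x0 := by
      filter_upwards [hnb] with x hx
      exact hmin' x ⟨hx.1.le, hx.2.le⟩
    have hws : ContDiffAt ℝ ∞ w x0 := h.smoothAt (h.pos_sub hx0P)
    have hfs : ContDiffAt ℝ ∞ f x0 := hws.sub (contDiffAt_const.mul hbs.contDiffAt)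
    have h1 : ∀ i, pd i (pd i f) x0 = pd i (pd i w) x0 - ε * pd i (pd i b) x0 := by
      intro i
      have h2 : pd i f =ᶠ[𝓝 x0] fun y => pd i w y - ε * pd i b y := by
        have h3 : ∀ᶠ y in 𝓝 x0, ContDiffAt ℝ 1 w y :=
          (hws.of_le (by simp) : ContDiffAt ℝ 1 w x0).eventually (by simp)
        filter_upwards [h3] with y hy
        have hby : DifferentiableAt ℝ b y := (hbs.differentiable (by simp)) y
        simp only [hf]
        rw [pd_sub (hy.differentiableAt (by simp)) (hby.const_mul ε), pd_const_mul ε hby]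
      have h4 : DifferentiableAt ℝ (pd i w) x0 :=
        (contDiffAt_pd hws (m := ∞) (by simp)).differentiableAt (by simp)
      have h5 : DifferentiableAt ℝ (pd i b) x0 :=
        (contDiffAt_pd hbs.contDiffAt (n := ∞) (m := ∞) (by simp)).differentiableAt (by simp)
      rw [pd_congr h2, pd_sub h4 (h5.const_mul ε), pd_const_mul ε h5]
    have h2 : 0 ≤ ∑ i, pd i (pd i f) x0 := Finset.sum_nonneg fun i _ => pd_pd_nonneg hfs hlm i
    have h3 : ∑ i, pd i (pd i f) x0 = lap w x0 - ε * lap b x0 := by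
      unfold lap
      rw [Finset.mul_sum, ← Finset.sum_sub_distrib]
      exact Finset.sum_congr rfl fun i _ => h1 i
    rw [h3, hharm x0 hx0P, lap_barrier, sb_eq] at h2
    have h4 : 0 < 8 * β * ‖x0 - p‖ ^ 2 - 2 * d * (1 + 2 * β * (ρ ^ 2 - ‖x0 - p‖ ^ 2)) := by
      have e1 : 8 * β * ‖x0 - p‖ ^ 2 - 2 * d * (1 + 2 * β * (ρ ^ 2 - ‖x0 - p‖ ^ 2)) =
          β * ‖x0 - p‖ ^ 2 * (8 + 4 * d) - 2 * d - 4 * d * (β * ρ ^ 2) := by ring
      have e2 : β * (θ * ρ ^ 2) = (d + 1) * θ := by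
        calc β * (θ * ρ ^ 2) = β * ρ ^ 2 * θ := by ring
          _ = (d + 1) * θ := by rw [hβρ]
      have h5 : β * (θ * ρ ^ 2) ≤ β * ‖x0 - p‖ ^ 2 := mul_le_mul_of_nonneg_left hx0.1 hβ0.le
      rw [e2] at h5
      have h6 : ((d : ℝ) + 1) * θ * (8 + 4 * d) = 4 * (d + 1) ^ 2 := by
        rw [hθ]
        field_simp
        ring
      have h7 := mul_le_mul_of_nonneg_right h5 (show (0 : ℝ) ≤ 8 + 4 * d by positivity)
      rw [h6] at h7
      rw [e1, hβρ]
      nlinarith
    have h5 := mul_pos hε0 h4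
    linarith
  -- the derivative at `z`
  intro hfd
  have hzU : z ∈ U := hcU (by rw [Metric.mem_closedBall, hz])
  have hwz : HasFDerivAt w (fderiv ℝ w z) z :=
    ((h.smoothAt hzU).differentiableAt (by simp)).hasFDerivAt
  rw [hfd] at hwz
  have hγ : HasDerivAt (fun t : ℝ => z + t • (p - z)) (p - z) 0 := by
    have h1 : HasDerivAt (fun t : ℝ => t • (p - z)) ((1 : ℝ) • (p - z)) 0 :=
      (hasDerivAt_id (0 : ℝ)).smul_const (p - z)
    rw [one_smul] at h1
    exact h1.const_add z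
  have hwz' : HasFDerivAt w (0 : Ed d →L[ℝ] ℝ) (z + (0 : ℝ) • (p - z)) := by simpa using hwz
  have hg : HasDerivAt (fun t : ℝ => w (z + t • (p - z))) ((0 : Ed d →L[ℝ] ℝ) (p - z)) 0 :=
    hwz'.comp_hasDerivAt 0 hγ
  have hw_z : w z = 0 := by
    rw [h.eq_closure (frontier_subset_closure hzf) hz0, h.frontier_zero hzf]
  have hslope := hg.tendsto_slope_zero_right
  simp only [zero_add, zero_smul, add_zero, hw_z, sub_zero, zero_apply,
    smul_eq_mul] at hslope
  have hlow : ∀ᶠ t in 𝓝[>] (0 : ℝ), ε * ρ ^ 2 ≤ t⁻¹ * w (z + t • (p - z)) := by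
    have h1 : ∀ᶠ t in 𝓝[>] (0 : ℝ), θ < (1 - t) ^ 2 := by
      have h2 : Tendsto (fun t : ℝ => (1 - t) ^ 2) (𝓝 0) (𝓝 ((1 - 0) ^ 2)) := by
        have : Continuous fun t : ℝ => (1 - t) ^ 2 := by fun_prop
        exact this.tendsto 0
      have h3 : θ < (1 - 0 : ℝ) ^ 2 := by simpa using hθ1
      exact (h2.eventually (lt_mem_nhds h3)).filter_mono nhdsWithin_le_nhds
    filter_upwards [h1, Ioc_mem_nhdsGT (show (0 : ℝ) < 1 by norm_num)] with t ht1 ht2
    have hnt : ‖z + t • (p - z) - p‖ ^ 2 = (1 - t) ^ 2 * ρ ^ 2 := by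
      have e1 : z + t • (p - z) - p = (1 - t) • (z - p) := by
        rw [sub_smul, one_smul, smul_sub, smul_sub]
        abel
      rw [e1, norm_smul, mul_pow, hzn, Real.norm_eq_abs, sq_abs]
    have hρ2 : 0 < ρ ^ 2 := by positivity
    have hmem : z + t • (p - z) ∈ A := by
      refine ⟨?_, ?_⟩
      · rw [hnt]
        exact mul_le_mul_of_nonneg_right ht1.le hρ2.le
      · rw [hnt]
        have : (1 - t) ^ 2 ≤ 1 := by nlinarith [ht2.1, ht2.2]
        nlinarith
    have h2 := hfpos _ hmem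
    have h3 : sb p ρ (z + t • (p - z)) = ρ ^ 2 * (2 * t - t ^ 2) := by
      rw [sb_eq, hnt]
      ring
    have h4 : ρ ^ 2 * t ≤ sb p ρ (z + t • (p - z)) := by
      rw [h3]
      have : t ≤ 2 * t - t ^ 2 := by nlinarith [ht2.1, ht2.2]
      exact mul_le_mul_of_nonneg_left this hρ2.le
    have h5 : ρ ^ 2 * t ≤ b (z + t • (p - z)) := by
      have h6 : 0 ≤ β * sb p ρ (z + t • (p - z)) ^ 2 := by positivity
      simp only [hbdef]
      linarith
    have h6 : ε * (ρ ^ 2 * t) ≤ w (z + t • (p - z)) := by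
      have h7 := mul_le_mul_of_nonneg_left h5 hε0.le
      simp only [hf] at h2
      linarith
    rw [inv_mul_eq_div, le_div_iff₀ ht2.1]
    linarith
  have h1 := ge_of_tendsto hslope hlow
  have h2 : 0 < ε * ρ ^ 2 := by positivity
  linarith

end Cone0

end Vale.Agent.P098
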