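import Vale.Agent.Lib.P098.Sta.Fv2
import Vale.Agent.Lib.P098.Sta.Fv3
import Vale.Agent.Lib.P098.Sta.Hopf

/-!
# P098: minimality implies the free boundary condition; conclusion
-/

open MeasureTheory Set Filter Topology
open scoped ContDiff ENNReal NNReal

namespace Vale.Agent.P098

variable {d : ℕ} {u w η : Ed d → ℝ} {U : Set (Ed d)}

namespace Cone0

theorem smooth_W1 (h : Cone0 u w U) (e : Ed d) : ContDiffOn ℝ ∞ (fun y => fderiv ℝ w y e) U :=
  (h.smooth.fderiv_of_isOpen h.isOpen (m := ∞) (by simp)).clm_apply contDiffOn_const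

theorem smooth_gw (h : Cone0 u w U) : ContDiffOn ℝ ∞ (fun y => ∑ j, pd j w y ^ 2) U :=
  ContDiffOn.sum fun j _ => (h.contDiffOn_pdw j).pow 2

/-- the divergence of the field of the inner variation -/
theorem div_field (h : Cone0 u w U) (hη : ContDiff ℝ ∞ η) (e : Ed d) {x : Ed d}
    (hx : x ∈ Pos u) (hl : lap w x = 0) :
    ∑ i, pd i (fun y => η y * (((∑ j, pd j w y ^ 2) + 1) * e i -
      2 * fderiv ℝ w y e * pd i w y)) x =
    ((∑ j, pd j w x ^ 2) + 1) * fderiv ℝ η x e -
      2 * fderiv ℝ w x e * ∑ i, pd i w x * pd i η x := by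
  have hxU := h.pos_sub hx
  have hn := h.isOpen.mem_nhds hxU
  have hd : ∀ j, DifferentiableAt ℝ (pd j w) x := fun j =>
    ((h.contDiffOn_pdw j).contDiffAt hn).differentiableAt (by simp)
  have hdη : DifferentiableAt ℝ η x := (hη.differentiable (by simp)) x
  have hdW : DifferentiableAt ℝ (fun y => fderiv ℝ w y e) x :=
    ((h.smooth_W1 e).contDiffAt hn).differentiableAt (by simp)
  have hdg : DifferentiableAt ℝ (fun y => ∑ j, pd j w y ^ 2) x :=
    (h.smooth_gw.contDiffAt hn).differentiableAt (by simp)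
  have hdg1 : DifferentiableAt ℝ (fun y => (∑ j, pd j w y ^ 2) + 1) x :=
    hdg.add (differentiableAt_const _)
  have hw2 : ContDiffAt ℝ 2 w x := (h.smoothAt hxU).of_le ENat.LEInfty.out
  have hpg : ∀ i, pd i (fun y => (∑ j, pd j w y ^ 2) + 1) x =
      ∑ j, 2 * pd j w x * pd i (pd j w) x := by
    intro i
    rw [pd_add hdg (differentiableAt_const _), pd_const, add_zero,
      pd_sum Finset.univ (fun j y => pd j w y ^ 2) (fun j _ => (hd j).pow 2)]
    exact Finset.sum_congr rfl fun j _ => pd_sq (hd j)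
  have hpW : ∀ i, pd i (fun y => fderiv ℝ w y e) x = ∑ j, e j * pd i (pd j w) x := by
    intro i
    have e1 : (fun y => fderiv ℝ w y e) = fun y => ∑ j, e j * pd j w y := by
      funext y
      exact fderiv_apply_eq w y e
    rw [e1, pd_sum Finset.univ (fun j y => e j * pd j w y) (fun j _ => (hd j).const_mul _)]
    exact Finset.sum_congr rfl fun j _ => pd_const_mul _ (hd j)
  have hterm : ∀ i, pd i (fun y => η y * (((∑ j, pd j w y ^ 2) + 1) * e i -
      2 * fderiv ℝ w y e * pd i w y)) x =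
      pd i η x * (((∑ j, pd j w x ^ 2) + 1) * e i - 2 * fderiv ℝ w x e * pd i w x) +
      η x * ((∑ j, 2 * pd j w x * pd i (pd j w) x) * e i -
        2 * ((∑ j, e j * pd i (pd j w) x) * pd i w x + fderiv ℝ w x e * pd i (pd i w) x)) := by
    intro i
    have h1 : DifferentiableAt ℝ (fun y => ((∑ j, pd j w y ^ 2) + 1) * e i) x :=
      hdg1.mul (differentiableAt_const _)
    have h2 : DifferentiableAt ℝ (fun y => fderiv ℝ w y e * pd i w y) x := hdW.mul (hd i)
    have e2 : (fun y => η y * (((∑ j, pd j w y ^ 2) + 1) * e i -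
        2 * fderiv ℝ w y e * pd i w y)) =
        fun y => η y * (((∑ j, pd j w y ^ 2) + 1) * e i - 2 * (fderiv ℝ w y e * pd i w y)) := by
      funext y
      ring
    have h3 : DifferentiableAt ℝ (fun y => ((∑ j, pd j w y ^ 2) + 1) * e i -
        2 * (fderiv ℝ w y e * pd i w y)) x := h1.sub (h2.const_mul 2)
    rw [e2, pd_mul hdη h3, pd_sub h1 (h2.const_mul 2), pd_mul hdg1 (differentiableAt_const _),
      pd_const, pd_const_mul 2 h2, pd_mul hdW (hd i), hpg i, hpW i]
    ring
  have hsym : ∑ i, (∑ j, e j * pd i (pd j w) x) * pd i w x =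
      ∑ i, (∑ j, pd j w x * pd i (pd j w) x) * e i := by
    simp only [Finset.sum_mul]
    rw [Finset.sum_comm]
    refine Finset.sum_congr rfl fun i _ => Finset.sum_congr rfl fun j _ => ?_
    rw [pd_comm hw2 j i]
    ring
  have hD : fderiv ℝ η x e = ∑ i, e i * pd i η x := fderiv_apply_eq η x e
  rw [Finset.sum_congr rfl fun i _ => hterm i, Finset.sum_add_distrib, ← Finset.mul_sum]
  have hzero : ∑ i, ((∑ j, 2 * pd j w x * pd i (pd j w) x) * e i -
        2 * ((∑ j, e j * pd i (pd j w) x) * pd i w x + fderiv ℝ w x e * pd i (pd i w) x)) =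
        0 := by
    have hl' : ∑ i, pd i (pd i w) x = 0 := hl
    have e3 : ∀ i, (∑ j, 2 * pd j w x * pd i (pd j w) x) * e i =
        2 * ((∑ j, pd j w x * pd i (pd j w) x) * e i) := by
      intro i
      rw [← mul_assoc, Finset.mul_sum]
      congr 1
      exact Finset.sum_congr rfl fun j _ => by ring
    simp only [e3, Finset.sum_sub_distrib, ← Finset.mul_sum, Finset.sum_add_distrib]
    rw [hsym, hl']
    ring
  rw [hzero, mul_zero, add_zero, hD]
  simp only [mul_sub, Finset.sum_sub_distrib, Finset.mul_sum]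
  congr 1
  · exact Finset.sum_congr rfl fun i _ => by ring
  · exact Finset.sum_congr rfl fun i _ => by ring

/-- Minimality implies the free boundary condition at points with nonzero gradient. -/
theorem grad_of_nd (h : Cone0 u w U) (hm : LipMin u) {z : Ed d} (hz : z ∈ frontier (Pos u))
    (hz0 : z ≠ 0) (hnd : fderiv ℝ w z ≠ 0) : ∑ i, pd i w z ^ 2 = 1 := by
  have hzU := h.frontier_sub hz hz0
  have hharm := h.harm_of_min hm
  by_contra hne
  set g : Ed d → ℝ := fun x => ∑ i, pd i w x ^ 2 with hg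
  have hgz0 : 0 < g z := by
    have h1 := norm_fderiv_sq w z
    have h2 : 0 < ‖fderiv ℝ w z‖ := norm_pos_iff.2 hnd
    change 0 < ∑ i, pd i w z ^ 2
    rw [← h1]
    positivity
  set e : Ed d := (1 - g z) • gr w z with he
  set W1 : Ed d → ℝ := fun x => fderiv ℝ w x e with hW1
  have hW1z : W1 z = (1 - g z) * g z := by
    simp only [hW1, he, map_smul, smul_eq_mul]
    rw [fderiv_gr]
    congr 1
    exact Finset.sum_congr rfl fun i _ => by ring
  set c₀ : ℝ := (1 - g z) * W1 z / 2 with hc₀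
  have hc₀0 : 0 < c₀ := by
    rw [hc₀, hW1z]
    have h1 : 0 < (1 - g z) ^ 2 := by
      have : 1 - g z ≠ 0 := fun h1 => hne (by
        change g z = 1
        linarith)
      positivity
    nlinarith
  have hgc : ContinuousOn g U := h.contOn_gw
  have hWc : ContinuousOn W1 U := (h.smooth_W1 e).continuousOn
  have hcont : ContinuousAt (fun x => (1 - g x) * W1 x) z :=
    ((continuousOn_const.sub hgc).mul hWc).continuousAt (h.isOpen.mem_nhds hzU)
  have hev : ∀ᶠ x in 𝓝 z, c₀ ≤ (1 - g x) * W1 x ∧ x ∈ U ∧ x ≠ 0 := by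
    have h1 := hcont.eventually (lt_mem_nhds (show c₀ < (1 - g z) * W1 z by linarith))
    filter_upwards [h1, h.isOpen.mem_nhds hzU, isOpen_ne.mem_nhds hz0] with x hx1 hx2 hx3
    exact ⟨hx1.le, hx2, hx3⟩
  obtain ⟨r, hr, hrb⟩ := Metric.eventually_nhds_iff_ball.1 hev
  have hrr : r / 2 < r := by linarith
  obtain ⟨η, hη, hη0, -, hηs, hηV, W, -, hKW, hW⟩ :=
    exists_cutoff (isCompact_closedBall z (r / 2))
      (Metric.isOpen_ball : IsOpen (Metric.ball z r)) (Metric.closedBall_subset_ball hrr)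
  have hηU : tsupport η ⊆ U := fun x hx => (hrb x (hηV hx)).2.1
  have h0 : (0 : Ed d) ∉ tsupport η := fun hx => (hrb 0 (hηV hx)).2.2 rfl
  have hη1 : ∀ x ∈ Metric.ball z (r / 2), η x = 1 := fun x hx =>
    hW x (hKW (Metric.ball_subset_closedBall hx))
  -- the field
  set F : Fin d → Ed d → ℝ := fun i y => η y * ((g y + 1) * e i - 2 * W1 y * pd i w y) with hF
  have hin : ∀ i, ContDiffOn ℝ ∞ (fun y => (g y + 1) * e i - 2 * W1 y * pd i w y) U := fun i =>
    ((h.smooth_gw.add contDiffOn_const).mul contDiffOn_const).sub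
      ((contDiffOn_const.mul (h.smooth_W1 e)).mul (h.contDiffOn_pdw i))
  have hFc : ∀ i, ContDiff ℝ 1 (F i) := fun i =>
    (contDiff_cutoff_mul h.isOpen hη hηU (hin i)).of_le (by simp)
  have hFs : ∀ i, HasCompactSupport (F i) := fun i => hηs.mul_right
  have hdivc : Continuous (fun x => ∑ i, pd i (F i) x) := SmoothCone.continuous_div hFc
  have hdivs : HasCompactSupport (fun x => ∑ i, pd i (F i) x) := SmoothCone.hasCompactSupport_div hFs
  have hzero : ∫ x in Pos u, ∑ i, pd i (F i) x = 0 := by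
    rw [← h.inner_var hm hη hηs h0 e]
    exact setIntegral_congr_fun h.isOpen_pos.measurableSet fun x hx =>
      h.div_field hη e hx (hharm x hx)
  have hlim := h.kut_tendsto hdivc hdivs
  rw [hzero] at hlim
  -- the layers
  obtain ⟨a, b, ha, hab, hchi⟩ := exists_chi_deriv
  obtain ⟨c, hc, ε₀, hε₀, hlay⟩ := h.layer hz hz0 hnd (show 0 < r / 2 by linarith) ha hab
  have hupper : ∀ᶠ n : ℕ in atTop,
      ∫ x, kut u (1 / ((n : ℝ) + 1)) x * ∑ i, pd i (F i) x ≤ -(c₀ * c / 2) := by
    obtain ⟨N, hN⟩ := exists_nat_gt (1 / ε₀)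
    filter_upwards [eventually_ge_atTop N] with n hn
    set ε : ℝ := 1 / ((n : ℝ) + 1) with hε
    have hε0 : 0 < ε := by
      rw [hε]
      positivity
    have hεε₀ : ε < ε₀ := by
      rw [hε, div_lt_comm₀ (by positivity) hε₀]
      have : (N : ℝ) ≤ n := by exact_mod_cast hn
      linarith
    rw [h.div_cut hε0 F hFc hFs]
    have hval : ∀ x ∈ Pos u, ∑ i, pd i (kut u ε) x * F i x =
        deriv chi (u x / ε) / ε * (η x * ((1 - g x) * W1 x)) := by
      intro x hx
      have e1 : ∀ i, pd i (kut u ε) x * F i x = deriv chi (u x / ε) / ε * η x *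
          ((g x + 1) * (e i * pd i w x) - 2 * W1 x * pd i w x ^ 2) := by
        intro i
        rw [h.pd_kut hx]
        simp only [hF]
        ring
      have e2 : ∑ i, e i * pd i w x = W1 x := (fderiv_apply_eq w x e).symm
      have e3 : ∑ i, pd i w x ^ 2 = g x := rfl
      rw [Finset.sum_congr rfl fun i _ => e1 i, ← Finset.mul_sum, Finset.sum_sub_distrib,
        ← Finset.mul_sum, ← Finset.mul_sum, e2, e3]
      ring
    have hnn : ∀ x, 0 ≤ ∑ i, pd i (kut u ε) x * F i x := by
      intro x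
      by_cases hx : x ∈ Pos u
      · rw [hval x hx]
        refine mul_nonneg (div_nonneg (chi_deriv_nonneg _) hε0.le) ?_
        by_cases hxs : x ∈ tsupport η
        · exact mul_nonneg (hη0 x) (hc₀0.le.trans (hrb x (hηV hxs)).1)
        · rw [image_eq_zero_of_notMem_tsupport hxs, zero_mul]
      · refine (Finset.sum_eq_zero fun i _ => ?_).ge
        rw [h.pd_kut_zero hε0 hx, zero_mul]
    have hkc : ∀ i, Continuous (pd i (kut u ε)) := fun i =>
      (contDiff_pd (n := ∞) (m := ∞) (h.kut_contDiff hε0) (by simp)).continuous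
    have hint : Integrable (fun x => ∑ i, pd i (kut u ε) x * F i x) volume :=
      integrable_finsetSum _ fun i _ =>
        ((hkc i).mul (hFc i).continuous).integrable_of_hasCompactSupport ((hFs i).mul_left)
    set A : Set (Ed d) := {x | x ∈ Metric.ball z (r / 2) ∧ a * ε < u x ∧ u x ≤ b * ε} with hA
    have hAm : MeasurableSet A :=
      Metric.isOpen_ball.measurableSet.inter
        ((isOpen_lt continuous_const h.cont).measurableSet.inter
          (isClosed_le h.cont continuous_const).measurableSet)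
    have hAf : volume A < ⊤ :=
      lt_of_le_of_lt (measure_mono fun x hx => hx.1) measure_ball_lt_top
    have hlow : ∀ x ∈ A, c₀ / (2 * ε) ≤ ∑ i, pd i (kut u ε) x * F i x := by
      rintro x ⟨hx1, hx2, hx3⟩
      have hxP : x ∈ Pos u := lt_of_le_of_lt (by positivity) hx2
      rw [hval x hxP, hη1 x hx1, one_mul]
      have h4 : 1 / 2 ≤ deriv chi (u x / ε) := by
        refine hchi _ ⟨?_, ?_⟩
        · rw [le_div_iff₀ hε0]
          exact hx2.le
        · rw [div_le_iff₀ hε0]
          exact hx3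
      have h5 : c₀ ≤ (1 - g x) * W1 x := (hrb x (Metric.ball_subset_ball hrr.le hx1)).1
      have e1 : c₀ / (2 * ε) = 1 / 2 / ε * c₀ := by
        field_simp
      rw [e1]
      exact mul_le_mul (div_le_div_of_nonneg_right h4 hε0.le) h5 hc₀0.le
        (div_nonneg (chi_deriv_nonneg _) hε0.le)
    have h6 : c₀ / (2 * ε) * volume.real A ≤ ∫ x in A, ∑ i, pd i (kut u ε) x * F i x := by
      have h7 := setIntegral_mono_on (integrableOn_const (C := c₀ / (2 * ε)) hAf.ne)
        hint.integrableOn hAm hlow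
      rw [setIntegral_const, smul_eq_mul] at h7
      linarith
    have h7 : ∫ x in A, ∑ i, pd i (kut u ε) x * F i x ≤
        ∫ x, ∑ i, pd i (kut u ε) x * F i x :=
      setIntegral_le_integral hint (Filter.Eventually.of_forall hnn)
    have h8 := hlay ε hε0 hεε₀
    have h9 : c₀ / (2 * ε) * (c * ε) ≤ c₀ / (2 * ε) * volume.real A :=
      mul_le_mul_of_nonneg_left h8 (by positivity)
    have h10 : c₀ / (2 * ε) * (c * ε) = c₀ * c / 2 := by
      field_simp
    linarith
  have := le_of_tendsto hlim hupper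
  have h11 : 0 < c₀ * c / 2 := by positivity
  linarith

/-- The gradient does not vanish on the free boundary (Hopf lemma at a nearby touching point). -/
theorem nd_of_min (h : Cone0 u w U) (hm : LipMin u) {z : Ed d} (hz : z ∈ frontier (Pos u))
    (hz0 : z ≠ 0) : fderiv ℝ w z ≠ 0 := by
  intro hcon
  have hzU := h.frontier_sub hz hz0
  have hharm := h.harm_of_min hm
  have hgz : ∑ i, pd i w z ^ 2 = 0 := by
    rw [← norm_fderiv_sq w z, hcon]
    simp
  have hev : ∀ᶠ x in 𝓝 z, ∑ i, pd i w x ^ 2 < 1 / 2 ∧ x ≠ 0 := by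
    have h1 := (h.contOn_gw.continuousAt (h.isOpen.mem_nhds hzU)).eventually
      (gt_mem_nhds (show ∑ i, pd i w z ^ 2 < 1 / 2 by rw [hgz]; norm_num))
    filter_upwards [h1, isOpen_ne.mem_nhds hz0] with x hx1 hx3
    exact ⟨hx1, hx3⟩
  obtain ⟨r, hr, hrb⟩ := Metric.eventually_nhds_iff_ball.1 hev
  obtain ⟨p, hpP, hpb⟩ : ∃ p ∈ Pos u, dist z p < r / 4 :=
    Metric.mem_closure_iff.1 (frontier_subset_closure hz) (r / 4) (by positivity)
  have hzc : z ∈ (Pos u)ᶜ := by
    intro hzP
    rw [h.isOpen_pos.frontier_eq] at hz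
    exact hz.2 hzP
  have hcl : IsClosed (Pos u)ᶜ := h.isOpen_pos.isClosed_compl
  obtain ⟨z', hz'c, hz'd⟩ := hcl.exists_infDist_eq_dist ⟨z, hzc⟩ p
  set ρ := Metric.infDist p (Pos u)ᶜ with hρ
  have hρ0 : 0 < ρ := by
    rw [hz'd]
    exact dist_pos.2 fun e => hz'c (e ▸ hpP)
  have hρr : ρ < r / 4 := by
    refine lt_of_le_of_lt (Metric.infDist_le_dist_of_mem hzc) ?_
    rw [dist_comm]
    exact hpb
  have hb : Metric.ball p ρ ⊆ Pos u := by
    intro y hy
    by_contra hyP
    have h1 := Metric.infDist_le_dist_of_mem (x := p) (show y ∈ (Pos u)ᶜ from hyP)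
    rw [Metric.mem_ball, dist_comm] at hy
    exact absurd h1 (not_le.2 hy)
  have hz'd' : dist z' p = ρ := by rw [dist_comm, ← hz'd]
  have hz'f : z' ∈ frontier (Pos u) := by
    rw [h.isOpen_pos.frontier_eq]
    refine ⟨?_, hz'c⟩
    refine closure_mono hb ?_
    rw [closure_ball p hρ0.ne', Metric.mem_closedBall, hz'd']
  have hcb : ∀ x ∈ Metric.closedBall p ρ, x ∈ Metric.ball z r := by
    intro x hx
    rw [Metric.mem_closedBall] at hx
    rw [Metric.mem_ball]
    calc dist x z ≤ dist x p + dist p z := dist_triangle _ _ _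
      _ < r := by
          rw [dist_comm p z]
          linarith
  have h0 : (0 : Ed d) ∉ Metric.closedBall p ρ := fun hx => (hrb 0 (hcb 0 hx)).2 rfl
  have hz'b : z' ∈ Metric.closedBall p ρ := by
    rw [Metric.mem_closedBall, hz'd']
  have hz'0 : z' ≠ 0 := (hrb z' (hcb z' hz'b)).2
  have hnd' := h.hopf hharm hρ0 hb hz'd' hz'f h0
  have h1 := h.grad_of_nd hm hz'f hz'0 hnd'
  have h2 := (hrb z' (hcb z' hz'b)).1
  rw [h1] at h2
  norm_num at h2

/-- **Minimality implies the free boundary condition.** -/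
theorem grad_of_min (h : Cone0 u w U) (hm : LipMin u) :
    ∀ z ∈ frontier (Pos u), z ≠ 0 → ∑ i, pd i w z ^ 2 = 1 := fun _ hz hz0 =>
  h.grad_of_nd hm hz hz0 (h.nd_of_min hm hz hz0)

/-- **A minimizer whose free boundary is smooth away from the origin is a classical solution.** -/
theorem smoothCone (h : Cone0 u w U) (hm : LipMin u) : SmoothCone u w U where
  hom := h.hom
  cont := h.cont
  nonneg := h.nonneg
  isOpen := h.isOpen
  sub := h.sub
  smooth := h.smooth
  eq := h.eq
  harm := h.harm_of_min hm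
  grad := h.grad_of_min hm

end Cone0

end Vale.Agent.P098
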