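import Vale.Agent.Lib.P098.Sta.Bd

/-!
# P098: estimates near the free boundary
-/

open MeasureTheory Set Filter Topology
open scoped ContDiff

namespace Vale.Agent.P098

variable {d : ℕ} {u w : Ed d → ℝ} {U : Set (Ed d)}

namespace SmoothCone

/-- `w` vanishes on the free boundary -/
theorem w_zero (h : SmoothCone u w U) {z : Ed d} (hz : z ∈ frontier (Pos u)) (hz0 : z ≠ 0) :
    w z = 0 := by
  rw [h.eq_closure (frontier_subset_closure hz) hz0, h.frontier_zero hz]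

/-- Lagrange multipliers: the gradient of a smooth function vanishing on the free boundary is
parallel to the gradient of `w` -/
theorem grad_parallel (h : SmoothCone u w U) {g : Ed d → ℝ} (hg : ContDiffOn ℝ ∞ g U)
    (hg0 : ∀ z ∈ frontier (Pos u), z ≠ 0 → g z = 0) {z : Ed d} (hz : z ∈ frontier (Pos u))
    (hz0 : z ≠ 0) (i : Fin d) :
    pd i g z = (∑ j, pd j g z * pd j w z) * pd i w z := by
  have hzU := h.frontier_sub hz hz0
  have hgz : ContDiffAt ℝ ∞ g z := hg.contDiffAt (h.isOpen.mem_nhds hzU)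
  have hext : IsLocalExtrOn g {x | w x = w z} z := by
    left
    have h1 : ∀ᶠ y in 𝓝[{x | w x = w z}] z, g z ≤ g y := by
      filter_upwards [self_mem_nhdsWithin, mem_nhdsWithin_of_mem_nhds (h.zero_set hz hz0),
        mem_nhdsWithin_of_mem_nhds (isOpen_ne.mem_nhds hz0)] with y hy1 hy2 hy3
      have hy4 : w y = 0 := by
        rw [hy1, h.w_zero hz hz0]
      rw [hg0 z hz hz0, hg0 y (hy2 hy4) hy3]
    exact h1
  obtain ⟨a, b, hab, hsum⟩ := hext.exists_multipliers_of_hasStrictFDerivAt_1d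
    ((h.smoothAt hzU).hasStrictFDerivAt (by simp)) (hgz.hasStrictFDerivAt (by simp))
  have hpt : ∀ k : Fin d, a * pd k w z + b * pd k g z = 0 := by
    intro k
    have h1 := congrArg (fun L : Ed d →L[ℝ] ℝ => L (EuclideanSpace.single k 1)) hsum
    simpa [pd] using h1
  have hgr := h.grad z hz hz0
  have hb : b ≠ 0 := by
    rintro rfl
    have ha : a ≠ 0 := by
      rintro rfl
      exact hab rfl
    have h1 : ∀ k, pd k w z = 0 := by
      intro k
      have := hpt k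
      simpa [ha] using this
    simp [h1] at hgr
  have h1 : ∀ k, pd k g z = (-(a / b)) * pd k w z := by
    intro k
    have := hpt k
    field_simp
    linarith
  have h2 : ∑ j, pd j g z * pd j w z = -(a / b) := by
    have : ∀ j ∈ Finset.univ, pd j g z * pd j w z = (-(a / b)) * pd j w z ^ 2 := by
      intro j _
      rw [h1 j]
      ring
    rw [Finset.sum_congr rfl this, ← Finset.mul_sum, hgr, mul_one]
  rw [h2]
  exact h1 i

/-- local to global for estimates on compact sets -/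
theorem bound_of_local (h : SmoothCone u w U) (n : ℕ) {g : Ed d → ℝ} (hg : ContDiffOn ℝ ∞ g U)
    (hloc : ∀ z ∈ frontier (Pos u), z ≠ 0 → ∃ t ∈ 𝓝 z, ∃ C : ℝ, ∀ x ∈ t, x ∈ Pos u →
      |g x| ≤ C * u x ^ n)
    {K : Set (Ed d)} (hK : IsCompact K) (h0 : (0 : Ed d) ∉ K) :
    ∃ C : ℝ, 0 ≤ C ∧ ∀ x ∈ K, x ∈ Pos u → |g x| ≤ C * u x ^ n := by
  have hmax : ∀ {x : Ed d} {C : ℝ}, x ∈ Pos u → C * u x ^ n ≤ max C 0 * u x ^ n := by
    intro x C hx
    exact mul_le_mul_of_nonneg_right (le_max_left _ _) (pow_nonneg (h.nonneg x) n)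
  suffices hs : ∃ C : ℝ, ∀ x ∈ K, x ∈ Pos u → |g x| ≤ C * u x ^ n by
    obtain ⟨C, hC⟩ := hs
    exact ⟨max C 0, le_max_right _ _, fun x hx hxP => (hC x hx hxP).trans (hmax hxP)⟩
  refine hK.induction_on (p := fun S => ∃ C : ℝ, ∀ x ∈ S, x ∈ Pos u →
    |g x| ≤ C * u x ^ n) ?_ ?_ ?_ ?_
  · exact ⟨0, fun x hx => absurd hx (notMem_empty x)⟩
  · rintro s t hst ⟨C, hC⟩
    exact ⟨C, fun x hx => hC x (hst hx)⟩
  · rintro s t ⟨C, hC⟩ ⟨C', hC'⟩
    refine ⟨max C C', fun x hx hxP => ?_⟩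
    have hu : 0 ≤ u x ^ n := pow_nonneg (h.nonneg x) n
    rcases hx with hx | hx
    · exact (hC x hx hxP).trans (mul_le_mul_of_nonneg_right (le_max_left _ _) hu)
    · exact (hC' x hx hxP).trans (mul_le_mul_of_nonneg_right (le_max_right _ _) hu)
  · intro x hxK
    have hx0 : x ≠ 0 := fun h' => h0 (h' ▸ hxK)
    by_cases hxc : x ∈ closure (Pos u)
    · by_cases hxP : x ∈ Pos u
      · -- interior point
        have hgx : ContinuousAt g x :=
          (hg.contDiffAt (h.isOpen.mem_nhds (h.pos_sub hxP))).continuousAt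
        have hux : 0 < u x := hxP
        have h1 : ∀ᶠ y in 𝓝 x, |g y| < |g x| + 1 :=
          (hgx.abs).eventually (gt_mem_nhds (by linarith))
        have h2 : ∀ᶠ y in 𝓝 x, u x / 2 < u y :=
          (h.cont.continuousAt).eventually (lt_mem_nhds (by linarith))
        refine ⟨{y | |g y| < |g x| + 1 ∧ u x / 2 < u y},
          mem_nhdsWithin_of_mem_nhds (h1.and h2), (|g x| + 1) / (u x / 2) ^ n, ?_⟩
        rintro y ⟨hy1, hy2⟩ -
        have h3 : (u x / 2) ^ n ≤ u y ^ n := pow_le_pow_left₀ (by positivity) hy2.le n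
        have h4 : 0 < (u x / 2) ^ n := by positivity
        rw [div_mul_eq_mul_div, le_div_iff₀ h4]
        have h5 : 0 ≤ |g x| + 1 := by positivity
        calc |g y| * (u x / 2) ^ n ≤ (|g x| + 1) * (u x / 2) ^ n :=
              mul_le_mul_of_nonneg_right hy1.le h4.le
          _ ≤ (|g x| + 1) * u y ^ n := mul_le_mul_of_nonneg_left h3 h5
      · obtain ⟨t, ht, C, hC⟩ := hloc x (h.mem_frontier_of_closure hxc hxP) hx0
        exact ⟨t, mem_nhdsWithin_of_mem_nhds ht, C, hC⟩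
    · refine ⟨(closure (Pos u))ᶜ,
        mem_nhdsWithin_of_mem_nhds (isClosed_closure.isOpen_compl.mem_nhds hxc), 0, ?_⟩
      exact fun y hy hyP => absurd (subset_closure hyP) hy

/-- a smooth function vanishing on the free boundary is `O(u)` on compact sets -/
theorem le_u (h : SmoothCone u w U) {g : Ed d → ℝ} (hg : ContDiffOn ℝ ∞ g U)
    (hg0 : ∀ z ∈ frontier (Pos u), z ≠ 0 → g z = 0)
    {K : Set (Ed d)} (hK : IsCompact K) (h0 : (0 : Ed d) ∉ K) :
    ∃ C : ℝ, 0 ≤ C ∧ ∀ x ∈ K, x ∈ Pos u → |g x| ≤ C * u x := by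
  have key := h.bound_of_local 1 hg (K := K) ?_ hK h0
  · simpa using key
  intro z hz hz0
  have hzU := h.frontier_sub hz hz0
  have hgz : ContDiffAt ℝ 1 g z := (hg.contDiffAt (h.isOpen.mem_nhds hzU)).of_le (by simp)
  obtain ⟨L, t, ht, hL⟩ := hgz.exists_lipschitzOnWith
  obtain ⟨r, hr, hrt⟩ := Metric.mem_nhds_iff.1 ht
  obtain ⟨r', hr', hnear⟩ := h.near hz hz0 hr
  refine ⟨Metric.ball z (min r r'), Metric.ball_mem_nhds z (lt_min hr hr'), L * 2, ?_⟩
  intro x hx hxP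
  obtain ⟨z', hz'f, hz'b, hz'0, hz'd⟩ :=
    hnear x (Metric.ball_subset_ball (min_le_right _ _) hx) hxP
  have h1 := hL.dist_le_mul x (hrt (Metric.ball_subset_ball (min_le_left _ _) hx)) z' (hrt hz'b)
  rw [hg0 z' hz'f hz'0, dist_zero_right, Real.norm_eq_abs, dist_eq_norm] at h1
  calc |g x| ≤ L * ‖x - z'‖ := h1
    _ ≤ L * (2 * u x) := mul_le_mul_of_nonneg_left hz'd L.2
    _ = L * 2 * u x ^ 1 := by ring

/-- a smooth function vanishing to second order on the free boundary is `O(u^2)` on compacts -/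
theorem le_u_sq (h : SmoothCone u w U) {g : Ed d → ℝ} (hg : ContDiffOn ℝ ∞ g U)
    (hg0 : ∀ z ∈ frontier (Pos u), z ≠ 0 → g z = 0)
    (hg1 : ∀ z ∈ frontier (Pos u), z ≠ 0 → ∀ i, pd i g z = 0)
    {K : Set (Ed d)} (hK : IsCompact K) (h0 : (0 : Ed d) ∉ K) :
    ∃ C : ℝ, 0 ≤ C ∧ ∀ x ∈ K, x ∈ Pos u → |g x| ≤ C * u x ^ 2 := by
  refine h.bound_of_local 2 hg ?_ hK h0
  intro z hz hz0
  have hzU := h.frontier_sub hz hz0
  have hgz : ContDiffAt ℝ 1 (fderiv ℝ g) z :=
    (hg.contDiffAt (h.isOpen.mem_nhds hzU)).fderiv_right (m := 1)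
      (show ((1 + 1 : ℕ∞) : ℕ∞ω) ≤ ((⊤ : ℕ∞) : ℕ∞ω) from WithTop.coe_le_coe.2 le_top)
  obtain ⟨L, t, ht, hL⟩ := hgz.exists_lipschitzOnWith
  obtain ⟨r, hr, hrt⟩ := Metric.mem_nhds_iff.1 (inter_mem ht (h.isOpen.mem_nhds hzU))
  obtain ⟨r', hr', hnear⟩ := h.near hz hz0 hr
  refine ⟨Metric.ball z (min r r'), Metric.ball_mem_nhds z (lt_min hr hr'), L * 4, ?_⟩
  intro x hx hxP
  have hxb : x ∈ Metric.ball z r := Metric.ball_subset_ball (min_le_left _ _) hx
  obtain ⟨z', hz'f, hz'b, hz'0, hz'd⟩ :=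
    hnear x (Metric.ball_subset_ball (min_le_right _ _) hx) hxP
  have hfz' : fderiv ℝ g z' = 0 := by
    ext v
    rw [fderiv_apply_eq]
    simp [hg1 z' hz'f hz'0]
  set S : Set (Ed d) := Metric.ball z r ∩ Metric.closedBall z' ‖x - z'‖ with hS
  have hSc : Convex ℝ S := (convex_ball z r).inter (convex_closedBall z' _)
  have hxS : x ∈ S := ⟨hxb, by rw [Metric.mem_closedBall, dist_eq_norm]⟩
  have hz'S : z' ∈ S := ⟨hz'b, Metric.mem_closedBall_self (norm_nonneg _)⟩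
  have hdiff : ∀ y ∈ S, DifferentiableAt ℝ g y := by
    intro y hy
    exact (hg.contDiffAt (h.isOpen.mem_nhds (hrt hy.1).2)).differentiableAt (by simp)
  have hbound : ∀ y ∈ S, ‖fderiv ℝ g y‖ ≤ L * ‖x - z'‖ := by
    intro y hy
    have h1 := hL.dist_le_mul y (hrt hy.1).1 z' (hrt hz'b).1
    rw [hfz', dist_zero_right] at h1
    refine h1.trans (mul_le_mul_of_nonneg_left ?_ L.2)
    exact hy.2
  have h1 := hSc.norm_image_sub_le_of_norm_fderiv_le hdiff hbound hz'S hxS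
  rw [hg0 z' hz'f hz'0, sub_zero, Real.norm_eq_abs] at h1
  have h2 : ‖x - z'‖ * ‖x - z'‖ ≤ (2 * u x) * (2 * u x) :=
    mul_le_mul hz'd hz'd (norm_nonneg _) ((norm_nonneg _).trans hz'd)
  calc |g x| ≤ L * ‖x - z'‖ * ‖x - z'‖ := h1
    _ = L * (‖x - z'‖ * ‖x - z'‖) := by ring
    _ ≤ L * ((2 * u x) * (2 * u x)) := mul_le_mul_of_nonneg_left h2 L.2
    _ = L * 4 * u x ^ 2 := by ring

/-- the defect `W = (1 - |∇w|²)/2` -/
noncomputable def _root_.Vale.Agent.P098.Wd {d : ℕ} (w : Ed d → ℝ) (x : Ed d) : ℝ :=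
  (1 - ∑ i, pd i w x ^ 2) / 2

theorem Wd_smooth (h : SmoothCone u w U) : ContDiffOn ℝ ∞ (Wd w) U := by
  unfold Wd
  refine ContDiffOn.div_const (contDiffOn_const.sub (ContDiffOn.sum fun i _ => ?_)) _
  exact (h.contDiffOn_pdw i).pow 2

theorem Wd_zero (h : SmoothCone u w U) {z : Ed d} (hz : z ∈ frontier (Pos u)) (hz0 : z ≠ 0) :
    Wd w z = 0 := by
  unfold Wd
  rw [h.grad z hz hz0]
  norm_num

/-- gradient of the defect -/
theorem pd_Wd (h : SmoothCone u w U) {x : Ed d} (hx : x ∈ U) (i : Fin d) :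
    pd i (Wd w) x = - ∑ j, pd i (pd j w) x * pd j w x := by
  have hd : ∀ j, DifferentiableAt ℝ (pd j w) x := fun j =>
    ((h.contDiffOn_pdw j).contDiffAt (h.isOpen.mem_nhds hx)).differentiableAt (by simp)
  have e : Wd w = fun y => (1 / 2 : ℝ) * (1 - ∑ j, pd j w y ^ 2) := by
    funext y
    unfold Wd
    ring
  have hds : DifferentiableAt ℝ (fun y => ∑ j, pd j w y ^ 2) x :=
    DifferentiableAt.fun_sum fun j _ => (hd j).pow 2
  have hd1 : DifferentiableAt ℝ (fun y => 1 - ∑ j, pd j w y ^ 2) x :=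
    (differentiableAt_const _).sub hds
  rw [e, pd_const_mul _ hd1, pd_sub (differentiableAt_const _) hds, pd_const,
    pd_sum Finset.univ (fun j y => pd j w y ^ 2) (fun j _ => (hd j).pow 2)]
  simp_rw [fun j => pd_sq (i := i) (hd j)]
  rw [zero_sub, mul_neg, Finset.mul_sum]
  congr 1
  refine Finset.sum_congr rfl fun j _ => ?_
  ring

/-- `1 - |∇u|² = O(u)` -/
theorem Wd_le (h : SmoothCone u w U) {K : Set (Ed d)} (hK : IsCompact K) (h0 : (0 : Ed d) ∉ K) :
    ∃ C : ℝ, 0 ≤ C ∧ ∀ x ∈ K, x ∈ Pos u → |Wd w x| ≤ C * u x :=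
  h.le_u h.Wd_smooth (fun _ hz hz0 => h.Wd_zero hz hz0) hK h0

/-- second order estimate -/
theorem Wd_sq (h : SmoothCone u w U) {K : Set (Ed d)} (hK : IsCompact K) (h0 : (0 : Ed d) ∉ K) :
    ∃ C : ℝ, 0 ≤ C ∧ ∀ x ∈ K, x ∈ Pos u →
      |Wd w x - w x * ∑ i, pd i w x * pd i (Wd w) x| ≤ C * u x ^ 2 := by
  have hA : ContDiffOn ℝ ∞ (fun x => ∑ i, pd i w x * pd i (Wd w) x) U := by
    refine ContDiffOn.sum fun i _ => (h.contDiffOn_pdw i).mul ?_
    exact contDiffOn_pd h.isOpen h.Wd_smooth (by simp)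
  refine h.le_u_sq (h.Wd_smooth.sub (h.smooth.mul hA)) ?_ ?_ hK h0
  · intro z hz hz0
    rw [h.Wd_zero hz hz0, h.w_zero hz hz0]
    ring
  · intro z hz hz0 i
    have hzU := h.frontier_sub hz hz0
    have hn := h.isOpen.mem_nhds hzU
    have hW : DifferentiableAt ℝ (Wd w) z := (h.Wd_smooth.contDiffAt hn).differentiableAt (by simp)
    have hw : DifferentiableAt ℝ w z := (h.smooth.contDiffAt hn).differentiableAt (by simp)
    have hA' : DifferentiableAt ℝ (fun x => ∑ i, pd i w x * pd i (Wd w) x) z :=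
      (hA.contDiffAt hn).differentiableAt (by simp)
    have hwA : DifferentiableAt ℝ (fun x => w x * ∑ i, pd i w x * pd i (Wd w) x) z :=
      hw.mul hA'
    rw [pd_sub hW hwA, pd_mul hw hA', h.w_zero hz hz0,
      h.grad_parallel h.Wd_smooth (fun _ hz hz0 => h.Wd_zero hz hz0) hz hz0 i]
    have e : ∑ j, pd j w z * pd j (Wd w) z = ∑ j, pd j (Wd w) z * pd j w z :=
      Finset.sum_congr rfl fun j _ => mul_comm _ _
    rw [e]
    ring

end SmoothCone

end Vale.Agent.P098
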