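import Vale.Agent.Lib.P098.Var.Div
import Vale.Agent.Lib.P098.Sta.Est

/-!
# P098: integration by parts against functions of `min(u, tφ)`
-/

open MeasureTheory Set Filter Topology
open scoped ContDiff

namespace Vale.Agent.P098

/-- `q(z) = z` for `z ≤ 0`, `q(z) = 0` for `z ≥ 1` -/
noncomputable def qq (z : ℝ) : ℝ := z * Real.smoothTransition (1 - z)

theorem qq_contDiff : ContDiff ℝ ∞ qq :=
  contDiff_id.mul (Real.smoothTransition.contDiff.comp (contDiff_const.sub contDiff_id))

theorem qq_of_nonpos {z : ℝ} (hz : z ≤ 0) : qq z = z := by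
  unfold qq
  rw [Real.smoothTransition.one_of_one_le (by linarith), mul_one]

theorem qq_of_one_le {z : ℝ} (hz : 1 ≤ z) : qq z = 0 := by
  unfold qq
  rw [Real.smoothTransition.zero_of_nonpos (by linarith), mul_zero]

theorem qq_nonneg {z : ℝ} (hz : 0 ≤ z) : 0 ≤ qq z :=
  mul_nonneg hz (Real.smoothTransition.nonneg _)

theorem qq_le {z : ℝ} (hz : 0 ≤ z) : qq z ≤ z :=
  mul_le_of_le_one_right hz (Real.smoothTransition.le_one _)

theorem deriv_sT_one {z : ℝ} (hz : 1 ≤ z) : deriv Real.smoothTransition z = 0 := by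
  have hmax : IsLocalMax Real.smoothTransition z := by
    filter_upwards with y
    rw [Real.smoothTransition.one_of_one_le hz]
    exact Real.smoothTransition.le_one y
  exact hmax.deriv_eq_zero

theorem deriv_sT_zero {z : ℝ} (hz : z ≤ 0) : deriv Real.smoothTransition z = 0 := by
  have hmin : IsLocalMin Real.smoothTransition z := by
    filter_upwards with y
    rw [Real.smoothTransition.zero_of_nonpos hz]
    exact Real.smoothTransition.nonneg y
  exact hmin.deriv_eq_zero

theorem deriv_qq (z : ℝ) : deriv qq z =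
    Real.smoothTransition (1 - z) - z * deriv Real.smoothTransition (1 - z) := by
  have h1 : HasDerivAt Real.smoothTransition (deriv Real.smoothTransition (1 - z)) (1 - z) :=
    ((Real.smoothTransition.contDiff (n := 1)).differentiable (by simp) _).hasDerivAt
  have h2 : HasDerivAt (fun y : ℝ => 1 - y) (-1) z := by
    simpa using (hasDerivAt_id z).const_sub 1
  have h3 : HasDerivAt (fun y : ℝ => Real.smoothTransition (1 - y))
      (deriv Real.smoothTransition (1 - z) * (-1)) z := h1.comp z h2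
  have h4 : HasDerivAt qq (1 * Real.smoothTransition (1 - z) +
      z * (deriv Real.smoothTransition (1 - z) * (-1))) z := (hasDerivAt_id z).mul h3
  rw [h4.deriv]
  ring

theorem deriv_qq_of_nonpos {z : ℝ} (hz : z ≤ 0) : deriv qq z = 1 := by
  rw [deriv_qq, Real.smoothTransition.one_of_one_le (by linarith),
    deriv_sT_one (by linarith)]
  ring

theorem deriv_qq_of_one_le {z : ℝ} (hz : 1 ≤ z) : deriv qq z = 0 := by
  rw [deriv_qq, Real.smoothTransition.zero_of_nonpos (by linarith),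
    deriv_sT_zero (by linarith)]
  ring

theorem deriv_qq_bounded : ∃ B : ℝ, 0 ≤ B ∧ ∀ z, |deriv qq z| ≤ B := by
  have hc : Continuous (deriv qq) := qq_contDiff.continuous_deriv (by simp)
  obtain ⟨C, hC⟩ := (isCompact_Icc (a := (0 : ℝ)) (b := 1)).exists_bound_of_continuousOn
    hc.continuousOn
  refine ⟨max C 1, le_trans zero_le_one (le_max_right _ _), fun z => ?_⟩
  rcases le_or_gt z 0 with h | h
  · rw [deriv_qq_of_nonpos h, abs_one]
    exact le_max_right _ _
  · rcases le_or_gt 1 z with h' | h'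
    · rw [deriv_qq_of_one_le h', abs_zero]
      exact le_trans zero_le_one (le_max_right _ _)
    · exact (hC z ⟨h.le, h'.le⟩).trans (le_max_left _ _)

variable {d : ℕ} {u w : Ed d → ℝ} {U : Set (Ed d)}

/-- smooth approximation of `min(w, tφ)` -/
noncomputable def hk (t κ : ℝ) (φ w : Ed d → ℝ) (x : Ed d) : ℝ :=
  t * φ x + t * κ * qq ((w x - t * φ x) / (t * κ))

theorem hk_of_le {t κ : ℝ} (ht : 0 < t) (hκ : 0 < κ) {φ w : Ed d → ℝ} {x : Ed d}
    (hx : w x ≤ t * φ x) : hk t κ φ w x = w x := by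
  unfold hk
  have h1 : 0 < t * κ := by positivity
  rw [qq_of_nonpos (div_nonpos_of_nonpos_of_nonneg (by linarith) h1.le)]
  field_simp
  ring

theorem hk_nonneg {t κ : ℝ} (ht : 0 < t) (hκ : 0 < κ) {φ w : Ed d → ℝ} {x : Ed d}
    (hφ : 0 ≤ φ x) (hw : 0 ≤ w x) : 0 ≤ hk t κ φ w x := by
  rcases le_or_gt (w x) (t * φ x) with h | h
  · rw [hk_of_le ht hκ h]
    exact hw
  · unfold hk
    have h1 : 0 < t * κ := by positivity
    have h2 := qq_nonneg (z := (w x - t * φ x) / (t * κ)) (div_nonneg (by linarith) h1.le)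
    positivity

theorem hk_le {t κ : ℝ} (ht : 0 < t) (hκ : 0 < κ) {φ w : Ed d → ℝ} {x : Ed d} :
    hk t κ φ w x ≤ w x := by
  rcases le_or_gt (w x) (t * φ x) with h | h
  · rw [hk_of_le ht hκ h]
  · unfold hk
    have h1 : 0 < t * κ := by positivity
    have h2 := qq_le (z := (w x - t * φ x) / (t * κ)) (div_nonneg (by linarith) h1.le)
    have h3 := mul_le_mul_of_nonneg_left h2 h1.le
    have h4 : t * κ * ((w x - t * φ x) / (t * κ)) = w x - t * φ x := by
      field_simp
    linarith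

theorem hk_contDiffOn {t κ : ℝ} {φ w : Ed d → ℝ} (hφ : ContDiff ℝ ∞ φ)
    (hw : ContDiffOn ℝ ∞ w U) : ContDiffOn ℝ ∞ (hk t κ φ w) U := by
  unfold hk
  refine (contDiffOn_const.mul hφ.contDiffOn).add (contDiffOn_const.mul ?_)
  exact qq_contDiff.comp_contDiffOn ((hw.sub (contDiffOn_const.mul hφ.contDiffOn)).div_const _)

theorem pd_hk {t κ : ℝ} (ht : 0 < t) (hκ : 0 < κ) {φ w : Ed d → ℝ} {x : Ed d}
    (hφ : DifferentiableAt ℝ φ x) (hw : DifferentiableAt ℝ w x) (i : Fin d) :
    pd i (hk t κ φ w) x = t * pd i φ x +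
      deriv qq ((w x - t * φ x) / (t * κ)) * (pd i w x - t * pd i φ x) := by
  have h1 : t * κ ≠ 0 := by positivity
  have e : hk t κ φ w = fun y => t * φ y + t * κ * qq ((t * κ)⁻¹ * (w y - t * φ y)) := by
    funext y
    unfold hk
    congr 3
    rw [div_eq_inv_mul]
  have e2 : (w x - t * φ x) / (t * κ) = (t * κ)⁻¹ * (w x - t * φ x) := by
    rw [div_eq_inv_mul]
  have hs : DifferentiableAt ℝ (fun y => w y - t * φ y) x := hw.sub (hφ.const_mul t)
  have hq : DifferentiableAt ℝ (fun y => qq ((t * κ)⁻¹ * (w y - t * φ y))) x :=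
    ((qq_contDiff.differentiable (by simp)) _).comp x (hs.const_mul _)
  rw [e2, e, pd_add (hφ.const_mul t) (hq.const_mul _), pd_const_mul _ hφ, pd_const_mul _ hq,
    pd_comp qq ((qq_contDiff.differentiable (by simp)) _) (hs.const_mul _),
    pd_const_mul _ hs, pd_sub hw (hφ.const_mul t), pd_const_mul _ hφ]
  field_simp

theorem hk_tendsto {t : ℝ} (ht : 0 < t) {φ w : Ed d → ℝ} {x : Ed d} :
    ∀ᶠ n : ℕ in atTop, hk t (1 / ((n : ℝ) + 1)) φ w x = min (w x) (t * φ x) ∧
      deriv qq ((w x - t * φ x) / (t * (1 / ((n : ℝ) + 1)))) =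
        if w x ≤ t * φ x then 1 else 0 := by
  rcases le_or_gt (w x) (t * φ x) with h | h
  · filter_upwards with n
    have h1 : (0 : ℝ) < 1 / ((n : ℝ) + 1) := by positivity
    rw [hk_of_le ht h1 h, min_eq_left h, if_pos h, deriv_qq_of_nonpos]
    · exact ⟨rfl, rfl⟩
    · exact div_nonpos_of_nonpos_of_nonneg (by linarith) (by positivity)
  · obtain ⟨N, hN⟩ := exists_nat_gt (t / (w x - t * φ x))
    filter_upwards [eventually_ge_atTop N] with n hn
    have h1 : (0 : ℝ) < 1 / ((n : ℝ) + 1) := by positivity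
    have h0 : 0 < w x - t * φ x := by linarith
    have h2 : 1 ≤ (w x - t * φ x) / (t * (1 / ((n : ℝ) + 1))) := by
      rw [le_div_iff₀ (by positivity), one_mul, mul_one_div, div_le_iff₀ (by positivity)]
      have h3 : t / (w x - t * φ x) < (n : ℝ) + 1 := by
        have : (N : ℝ) ≤ n := by exact_mod_cast hn
        linarith
      rw [div_lt_iff₀ h0] at h3
      linarith
    rw [deriv_qq_of_one_le h2, min_eq_right h.le, if_neg (not_le.2 h)]
    refine ⟨?_, rfl⟩
    unfold hk
    rw [qq_of_one_le h2]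
    ring

/-- **Integration by parts against functions of `min(u, tφ)`.** -/
theorem SmoothCone.smin (h : SmoothCone u w U) {φ : Ed d → ℝ} (hφ : ContDiff ℝ ∞ φ)
    (hφ0 : ∀ x, 0 ≤ φ x) (hφs : HasCompactSupport φ) (hφ00 : (0 : Ed d) ∉ tsupport φ)
    {t : ℝ} (ht : 0 < t) {G : ℝ → ℝ} (hG : ContDiff ℝ ∞ G) (hG0 : G 0 = 0)
    (V : Fin d → Ed d → ℝ) (hV : ∀ i, ContDiffOn ℝ ∞ (V i) U) :
    ∫ x in Pos u, ∑ i, (deriv G (min (u x) (t * φ x)) *
        (if u x ≤ t * φ x then pd i w x else t * pd i φ x) * V i x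
      + G (min (u x) (t * φ x)) * pd i (V i) x) = 0 := by
  -- the cutoff
  set K : Set (Ed d) := closure (Pos u) ∩ tsupport φ with hK
  have hKc : IsCompact K := hφs.isCompact.inter_left isClosed_closure
  have hKV : K ⊆ U \ {0} := by
    rintro x ⟨hx1, hx2⟩
    have hx0 : x ≠ 0 := fun e => hφ00 (e ▸ hx2)
    exact ⟨h.sub ⟨hx1, hx0⟩, hx0⟩
  have hVo : IsOpen (U \ {(0 : Ed d)}) := h.isOpen.sdiff isClosed_singleton
  obtain ⟨χ, hχ, hχ0, hχ1, hχs, hχV, W, hWo, hKW, hW1⟩ := exists_cutoff hKc hVo hKV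
  have hχU : tsupport χ ⊆ U := fun x hx => (hχV hx).1
  have hχ00 : (0 : Ed d) ∉ tsupport χ := fun h0 => (hχV h0).2 rfl
  -- the fields
  set κ : ℕ → ℝ := fun n => 1 / ((n : ℝ) + 1) with hκ
  have hκ0 : ∀ n, 0 < κ n := fun n => by
    rw [hκ]
    positivity
  set F : ℕ → Fin d → Ed d → ℝ := fun n i x =>
    χ x * (G (hk t (κ n) φ w x) * V i x) with hF
  have hin : ∀ n i, ContDiffOn ℝ ∞ (fun x => G (hk t (κ n) φ w x) * V i x) U := fun n i =>
    (hG.comp_contDiffOn (hk_contDiffOn hφ h.smooth)).mul (hV i)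
  have hFc : ∀ n i, ContDiff ℝ 1 (F n i) := fun n i =>
    (contDiff_cutoff_mul h.isOpen hχ hχU (hin n i)).of_le (by simp)
  have hFs : ∀ n i, HasCompactSupport (F n i) := fun n i => hχs.mul_right
  have hFts : ∀ n i, tsupport (F n i) ⊆ tsupport χ := fun n i => by
    refine closure_mono fun x hx => ?_
    rw [Function.mem_support] at hx ⊢
    intro h0
    apply hx
    simp only [hF, h0, zero_mul]
  have hzero : ∀ n, ∫ x in Pos u, ∑ i, pd i (F n i) x = 0 := by
    intro n
    refine h.div_eq_zero (F n) (hFc n) (hFs n) (fun i h0 => hχ00 (hFts n i h0)) ?_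
    intro x hx hx0
    refine Finset.sum_eq_zero fun i _ => ?_
    have h1 : hk t (κ n) φ w x = 0 := by
      rw [hk_of_le ht (hκ0 n), h.w_zero hx hx0]
      rw [h.w_zero hx hx0]
      exact mul_nonneg ht.le (hφ0 x)
    simp only [hF, h1, hG0, zero_mul, mul_zero]
  -- derivatives of the fields
  have hmem : ∀ x ∈ U, DifferentiableAt ℝ w x := fun x hx =>
    (h.smoothAt hx).differentiableAt (by simp)
  have hpdF : ∀ n i, ∀ x ∈ U, pd i (F n i) x = pd i χ x * (G (hk t (κ n) φ w x) * V i x) +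
      χ x * (deriv G (hk t (κ n) φ w x) * (t * pd i φ x +
      deriv qq ((w x - t * φ x) / (t * κ n)) * (pd i w x - t * pd i φ x)) * V i x +
        G (hk t (κ n) φ w x) * pd i (V i) x) := by
    intro n i x hx
    have h1 : DifferentiableAt ℝ (hk t (κ n) φ w) x :=
      ((hk_contDiffOn hφ h.smooth).contDiffAt (h.isOpen.mem_nhds hx)).differentiableAt (by simp)
    have h2 : DifferentiableAt ℝ (V i) x :=
      ((hV i).contDiffAt (h.isOpen.mem_nhds hx)).differentiableAt (by simp)
    have h3 : DifferentiableAt ℝ G (hk t (κ n) φ w x) := (hG.differentiable (by simp)) _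
    have h4 : DifferentiableAt ℝ (fun y => G (hk t (κ n) φ w y)) x := h3.comp x h1
    have h5 : DifferentiableAt ℝ χ x := (hχ.differentiable (by simp)) _
    have h6 : DifferentiableAt ℝ φ x := (hφ.differentiable (by simp)) _
    have h7 : DifferentiableAt ℝ (fun y => G (hk t (κ n) φ w y) * V i y) x := h4.mul h2
    simp only [hF]
    rw [pd_mul h5 h7, pd_mul h4 h2, pd_comp G h3 h1,
      pd_hk ht (hκ0 n) h6 (hmem x hx)]
  -- bounds
  set K' : Set (Ed d) := closure (Pos u) ∩ tsupport χ with hK'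
  have hK'c : IsCompact K' := hχs.isCompact.inter_left isClosed_closure
  have hK'U : K' ⊆ U := fun x hx => hχU hx.2
  have hbd : ∀ {g : Ed d → ℝ}, ContinuousOn g U → ∃ C : ℝ, 0 ≤ C ∧ ∀ x ∈ K', |g x| ≤ C := by
    intro g hg
    obtain ⟨C, hC⟩ := hK'c.exists_bound_of_continuousOn (hg.mono hK'U)
    exact ⟨max C 0, le_max_right _ _, fun x hx => (hC x hx).trans (le_max_left _ _)⟩
  obtain ⟨Cw, hCw0, hCw⟩ := hbd h.smooth.continuousOn
  have hGb : ∀ {g : ℝ → ℝ}, Continuous g → ∃ C : ℝ, 0 ≤ C ∧ ∀ s ∈ Icc (0 : ℝ) Cw, |g s| ≤ C := by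
    intro g hg
    obtain ⟨C, hC⟩ := (isCompact_Icc (a := (0 : ℝ)) (b := Cw)).exists_bound_of_continuousOn
      hg.continuousOn
    exact ⟨max C 0, le_max_right _ _, fun x hx => (hC x hx).trans (le_max_left _ _)⟩
  obtain ⟨CG, hCG0, hCG⟩ := hGb hG.continuous
  obtain ⟨CG', hCG'0, hCG'⟩ := hGb (hG.continuous_deriv (by simp))
  obtain ⟨B, hB0, hB⟩ := deriv_qq_bounded
  have hbi : ∀ i : Fin d, ∃ C : ℝ, ∀ x ∈ K', ∀ n, x ∈ Pos u → |pd i (F n i) x| ≤ C := by
    intro i
    obtain ⟨C1, hC10, hC1⟩ := hbd (g := pd i w) (h.contDiffOn_pdw i).continuousOn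
    obtain ⟨C2, hC20, hC2⟩ := hbd (g := V i) (hV i).continuousOn
    obtain ⟨C3, hC30, hC3⟩ := hbd (g := pd i (V i))
      (contDiffOn_pd (n := ∞) (m := ∞) h.isOpen (hV i) (by simp)).continuousOn
    obtain ⟨C4, hC40, hC4⟩ := hbd (g := pd i χ)
      (contDiff_pd (n := ∞) (m := ∞) hχ (by simp)).continuous.continuousOn
    obtain ⟨C5, hC50, hC5⟩ := hbd (g := pd i φ)
      (contDiff_pd (n := ∞) (m := ∞) hφ (by simp)).continuous.continuousOn
    refine ⟨C4 * (CG * C2) + 1 * (CG' * (t * C5 + B * (C1 + t * C5)) * C2 + CG * C3), ?_⟩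
    intro x hx n hxP
    rw [hpdF n i x (hK'U hx)]
    have hwx : 0 ≤ w x := by
      rw [h.eq x hxP]
      exact h.nonneg x
    have hh : hk t (κ n) φ w x ∈ Icc (0 : ℝ) Cw :=
      ⟨hk_nonneg ht (hκ0 n) (hφ0 x) hwx, (hk_le ht (hκ0 n)).trans ((le_abs_self _).trans
        (hCw x hx))⟩
    have e1 := hCG _ hh
    have e2 := hCG' _ hh
    have e3 : |t * pd i φ x + deriv qq ((w x - t * φ x) / (t * κ n)) *
        (pd i w x - t * pd i φ x)| ≤ t * C5 + B * (C1 + t * C5) := by
      have e4 : |t * pd i φ x| ≤ t * C5 := by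
        rw [abs_mul, abs_of_pos ht]
        exact mul_le_mul_of_nonneg_left (hC5 x hx) ht.le
      have e5 : |pd i w x - t * pd i φ x| ≤ C1 + t * C5 :=
        (abs_sub _ _).trans (add_le_add (hC1 x hx) e4)
      refine (abs_add_le _ _).trans (add_le_add e4 ?_)
      rw [abs_mul]
      exact mul_le_mul (hB _) e5 (abs_nonneg _) hB0
    have hχx : |χ x| ≤ 1 := by
      rw [abs_of_nonneg (hχ0 x)]
      exact hχ1 x
    refine (abs_add_le _ _).trans (add_le_add ?_ ?_)
    · rw [abs_mul, abs_mul]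
      exact mul_le_mul (hC4 x hx) (mul_le_mul e1 (hC2 x hx) (abs_nonneg _) hCG0)
        (by positivity) hC40
    · rw [abs_mul]
      refine mul_le_mul hχx ?_ (abs_nonneg _) zero_le_one
      refine (abs_add_le _ _).trans (add_le_add ?_ ?_)
      · rw [abs_mul, abs_mul]
        exact mul_le_mul (mul_le_mul e2 e3 (abs_nonneg _) hCG'0) (hC2 x hx) (abs_nonneg _)
          (by positivity)
      · rw [abs_mul]
        exact mul_le_mul e1 (hC3 x hx) (abs_nonneg _) hCG0
  choose Cb hCb using hbi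
  -- the limit
  have hlim : Tendsto (fun n => ∫ x in Pos u, ∑ i, pd i (F n i) x) atTop
      (𝓝 (∫ x in Pos u, ∑ i, (deriv G (min (u x) (t * φ x)) *
        (if u x ≤ t * φ x then pd i w x else t * pd i φ x) * V i x
      + G (min (u x) (t * φ x)) * pd i (V i) x))) := by
    refine tendsto_integral_of_dominated_convergence
      (fun x => (tsupport χ).indicator (fun _ => ∑ i, |Cb i|) x) ?_ ?_ ?_ ?_
    · intro n
      exact (continuous_div (hFc n)).aestronglyMeasurable
    · refine IntegrableOn.integrable ?_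
      rw [integrableOn_indicator_iff hχs.isCompact.isClosed.measurableSet]
      refine IntegrableOn.mono_set ?_ inter_subset_left
      exact integrableOn_const hχs.isCompact.measure_lt_top.ne
    · intro n
      filter_upwards [ae_restrict_mem h.isOpen_pos.measurableSet] with x hx
      by_cases hxs : x ∈ tsupport χ
      · rw [indicator_of_mem hxs]
        refine (norm_sum_le _ _).trans (Finset.sum_le_sum fun i _ => ?_)
        rw [Real.norm_eq_abs]
        exact (hCb i x ⟨subset_closure hx, hxs⟩ n hx).trans (le_abs_self _)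
      · rw [indicator_of_notMem hxs]
        rw [Finset.sum_eq_zero fun i _ =>
          pd_eq_zero_of_notMem_tsupport fun h0 => hxs (hFts n i h0)]
        simp
    · filter_upwards [ae_restrict_mem h.isOpen_pos.measurableSet] with x hx
      refine tendsto_const_nhds.congr' ?_
      filter_upwards [hk_tendsto (φ := φ) (w := w) (x := x) ht] with n hn
      obtain ⟨hn1, hn2⟩ := hn
      refine Finset.sum_congr rfl fun i _ => ?_
      rw [hpdF n i x (h.pos_sub hx)]
      simp only [hκ]
      rw [hn1, hn2, h.eq x hx]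
      by_cases hxs : x ∈ tsupport φ
      · have hxK : x ∈ K := ⟨subset_closure hx, hxs⟩
        have h1 : χ =ᶠ[𝓝 x] fun _ => 1 := by
          filter_upwards [hWo.mem_nhds (hKW hxK)] with y hy
          exact hW1 y hy
        rw [pd_congr h1, pd_const, h1.self_of_nhds]
        split_ifs
        · ring
        · ring
      · have h1 : φ x = 0 := image_eq_zero_of_notMem_tsupport hxs
        have h2 : pd i φ x = 0 := pd_eq_zero_of_notMem_tsupport hxs
        have hux : 0 < u x := hx
        have h3 : ¬ (u x ≤ t * φ x) := by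
          rw [h1, mul_zero]
          exact not_le.2 hux
        rw [if_neg h3, if_neg h3, h1, h2, mul_zero, min_eq_right hux.le, hG0]
        ring
  have hlim2 : Tendsto (fun n => ∫ x in Pos u, ∑ i, pd i (F n i) x) atTop (𝓝 0) := by
    simp only [hzero]
    exact tendsto_const_nhds
  exact tendsto_nhds_unique hlim hlim2

end Vale.Agent.P098
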