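import Vale.Agent.Lib.P098.Sta.Comp
import Vale.Agent.Lib.P098.Sta.Smin

/-!
# P098: minimality implies the stability inequality
-/

open MeasureTheory Set Filter Topology
open scoped ContDiff ENNReal

namespace Vale.Agent.P098

variable {d : ℕ} {u w : Ed d → ℝ} {U : Set (Ed d)}

namespace SmoothCone

variable {φ : Ed d → ℝ} {t : ℝ}

theorem contOn_wφ (h : SmoothCone u w U) (hφ : ContDiff ℝ ∞ φ) :
    ContinuousOn (fun x => ∑ i, pd i w x * pd i φ x) U :=
  continuousOn_finsetSum _ fun i _ => (h.contDiffOn_pdw i).continuousOn.mul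
    (contDiff_pd (n := ∞) (m := ∞) hφ (by simp)).continuous.continuousOn

theorem int_wφ (h : SmoothCone u w U) (hφ : ContDiff ℝ ∞ φ) (hφs : HasCompactSupport φ)
    (h0 : (0 : Ed d) ∉ tsupport φ) {A : Set (Ed d)} (hA : MeasurableSet A) (hAP : A ⊆ Pos u) :
    IntegrableOn (fun x => ∑ i, pd i w x * pd i φ x) A := by
  refine h.integrableOn_supp hφs h0 (h.contOn_wφ hφ) ?_ hA hAP
  intro x _ hx
  have h1 : ∀ i, pd i φ x = 0 := fun i => pd_eq_zero_of_notMem_tsupport hx
  simp [h1]

theorem int_φφ (h : SmoothCone u w U) (hφ : ContDiff ℝ ∞ φ) (hφs : HasCompactSupport φ)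
    (h0 : (0 : Ed d) ∉ tsupport φ) {A : Set (Ed d)} (hA : MeasurableSet A) (hAP : A ⊆ Pos u) :
    IntegrableOn (fun x => ∑ i, pd i φ x ^ 2) A := by
  refine h.integrableOn_supp hφs h0 ?_ ?_ hA hAP
  · exact continuousOn_finsetSum _ fun i _ =>
      (contDiff_pd (n := ∞) (m := ∞) hφ (by simp)).continuous.continuousOn.pow 2
  · intro x _ hx
    have h1 : ∀ i, pd i φ x = 0 := fun i => pd_eq_zero_of_notMem_tsupport hx
    simp [h1]

/-- a function which is continuous up to the boundary is integrable on `{0 < u ≤ tφ}` -/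
theorem int_Lt (h : SmoothCone u w U) (hφs : HasCompactSupport φ)
    (h0 : (0 : Ed d) ∉ tsupport φ) {g : Ed d → ℝ} (hg : ContinuousOn g U) :
    IntegrableOn g (Lt u φ t) := by
  set K : Set (Ed d) := closure (Pos u) ∩ tsupport φ with hK
  have hKc : IsCompact K := hφs.isCompact.inter_left isClosed_closure
  have hKU : K ⊆ U := fun x hx => h.sub ⟨hx.1, fun e => h0 (e ▸ hx.2)⟩
  refine ((hg.mono hKU).integrableOn_compact hKc).mono_set ?_
  exact fun x hx => ⟨subset_closure hx.1, Lt_supp hx⟩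

theorem Lt_fin (hφs : HasCompactSupport φ) : volume (Lt u φ t) < ⊤ :=
  lt_of_le_of_lt (measure_mono Lt_supp) hφs.isCompact.measure_lt_top

/-- first variation identity on the region `{u ≤ tφ}` -/
theorem first_id (h : SmoothCone u w U) (hφ : ContDiff ℝ ∞ φ)
    (hφ0 : ∀ x, 0 ≤ φ x) (hφs : HasCompactSupport φ) (h0 : (0 : Ed d) ∉ tsupport φ)
    (ht : 0 < t) :
    (∫ x in Lt u φ t, ∑ i, pd i w x ^ 2) +
      t * ∫ x in Pt u φ t, ∑ i, pd i w x * pd i φ x = 0 := by
  have hφc : Continuous φ := hφ.continuous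
  have hLm : MeasurableSet (Lt u φ t) := Lt_meas h.cont hφc
  have hPm : MeasurableSet (Pt u φ t) := Pt_meas h.cont hφc
  have key := h.smin hφ hφ0 hφs h0 ht (G := fun s => s) contDiff_id rfl (fun i => pd i w)
    (fun i => h.contDiffOn_pdw i)
  have hderiv : ∀ s : ℝ, deriv (fun s : ℝ => s) s = 1 := fun s => deriv_id s
  simp only [hderiv, one_mul] at key
  have hL : ∀ x ∈ Lt u φ t, (∑ i, ((if u x ≤ t * φ x then pd i w x else t * pd i φ x) *
      pd i w x + min (u x) (t * φ x) * pd i (pd i w) x)) = ∑ i, pd i w x ^ 2 := by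
    intro x hx
    rw [Finset.sum_add_distrib, ← Finset.mul_sum]
    have h1 : ∑ i, pd i (pd i w) x = 0 := h.harm x hx.1
    rw [h1, mul_zero, add_zero]
    refine Finset.sum_congr rfl fun i _ => ?_
    rw [if_pos hx.2]
    ring
  have hP : ∀ x ∈ Pt u φ t, (∑ i, ((if u x ≤ t * φ x then pd i w x else t * pd i φ x) *
      pd i w x + min (u x) (t * φ x) * pd i (pd i w) x)) =
        t * ∑ i, pd i w x * pd i φ x := by
    intro x hx
    rw [Finset.sum_add_distrib, ← Finset.mul_sum]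
    have h1 : ∑ i, pd i (pd i w) x = 0 := h.harm x (Pt_sub hφ0 ht hx)
    rw [h1, mul_zero, add_zero, Finset.mul_sum]
    refine Finset.sum_congr rfl fun i _ => ?_
    rw [if_neg (not_le.2 hx)]
    ring
  have iL := h.int_Lt (t := t) hφs h0 h.contOn_gw
  have iP := (h.int_wφ hφ hφs h0 hPm (Pt_sub hφ0 ht)).const_mul t
  rw [Lt_union hφ0 ht, setIntegral_union Lt_disj hPm
    (iL.congr_fun (fun x hx => (hL x hx).symm) hLm)
    (IntegrableOn.congr_fun iP (fun x hx => (hP x hx).symm) hPm),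
    setIntegral_congr_fun hLm hL, setIntegral_congr_fun hPm hP, integral_const_mul] at key
  exact key

/-- the upper bound obtained from minimality -/
theorem Wd_upper (h : SmoothCone u w U) (hm : LipMin u) (hφ : ContDiff ℝ ∞ φ)
    (hφ0 : ∀ x, 0 ≤ φ x) (hφs : HasCompactSupport φ) (h0 : (0 : Ed d) ∉ tsupport φ)
    (ht : 0 < t) :
    ∫ x in Lt u φ t, 2 * Wd w x ≤ t ^ 2 * ∫ x in Pos u, ∑ i, pd i φ x ^ 2 := by
  have hφc : Continuous φ := hφ.continuous
  have hLm : MeasurableSet (Lt u φ t) := Lt_meas h.cont hφc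
  have hPm : MeasurableSet (Pt u φ t) := Pt_meas h.cont hφc
  have h1 := h.compare hm hφ hφ0 hφs h0 ht
  have h2 := h.first_id hφ hφ0 hφs h0 ht
  have iL := h.int_Lt (t := t) hφs h0 h.contOn_gw
  have i1 : IntegrableOn (fun _ : Ed d => (1 : ℝ)) (Lt u φ t) :=
    integrableOn_const (Lt_fin hφs).ne
  have iP := (h.int_wφ hφ hφs h0 hPm (Pt_sub hφ0 ht)).const_mul (2 * t)
  have iφ := h.int_φφ hφ hφs h0 hPm (Pt_sub hφ0 ht)
  rw [integral_add iL i1, integral_sub (iφ.const_mul (t ^ 2)) iP, integral_const_mul,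
    integral_const_mul] at h1
  have h3 : ∫ x in Lt u φ t, 2 * Wd w x =
      (∫ x in Lt u φ t, (1 : ℝ)) - ∫ x in Lt u φ t, ∑ i, pd i w x ^ 2 := by
    rw [← integral_sub i1 iL]
    refine setIntegral_congr_fun hLm fun x _ => ?_
    unfold Wd
    ring
  have h4 : ∫ x in Pt u φ t, ∑ i, pd i φ x ^ 2 ≤ ∫ x in Pos u, ∑ i, pd i φ x ^ 2 := by
    refine setIntegral_mono_set (h.int_φφ hφ hφs h0 h.isOpen_pos.measurableSet subset_rfl) ?_
      (Pt_sub hφ0 ht).eventuallyLE
    filter_upwards with x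
    exact Finset.sum_nonneg fun i _ => sq_nonneg _
  have h5 := mul_le_mul_of_nonneg_left h4 (sq_nonneg t)
  rw [h3]
  linarith

/-- the region `{0 < u ≤ tφ}` has volume `O(t)` -/
theorem vol_le (h : SmoothCone u w U) (hφ : ContDiff ℝ ∞ φ)
    (hφ0 : ∀ x, 0 ≤ φ x) (hφs : HasCompactSupport φ) (h0 : (0 : Ed d) ∉ tsupport φ) :
    ∃ C t₀ : ℝ, 0 ≤ C ∧ 0 < t₀ ∧ ∀ t : ℝ, 0 < t → t ≤ t₀ →
      volume.real (Lt u φ t) ≤ C * t := by
  have hφc : Continuous φ := hφ.continuous
  obtain ⟨C₁, hC₁, hW⟩ := h.Wd_le hφs.isCompact h0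
  obtain ⟨M, hM⟩ := hφs.exists_bound_of_continuous hφc
  have hM0 : 0 ≤ M := (norm_nonneg _).trans (hM 0)
  set C₂ : ℝ := ∫ x in Pos u, |∑ i, pd i w x * pd i φ x| with hC₂
  have hC₂0 : 0 ≤ C₂ := integral_nonneg fun x => abs_nonneg _
  refine ⟨2 * C₂, 1 / (4 * C₁ * M + 1), by positivity, by positivity, ?_⟩
  intro t ht htt
  have hLm : MeasurableSet (Lt u φ t) := Lt_meas h.cont hφc
  have hPm : MeasurableSet (Pt u φ t) := Pt_meas h.cont hφc
  have h2 := h.first_id hφ hφ0 hφs h0 ht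
  have iL := h.int_Lt (t := t) hφs h0 h.contOn_gw
  have iP := h.int_wφ hφ hφs h0 hPm (Pt_sub hφ0 ht)
  have iPos := h.int_wφ hφ hφs h0 h.isOpen_pos.measurableSet subset_rfl
  have h3 : ∀ x ∈ Lt u φ t, (1 / 2 : ℝ) ≤ ∑ i, pd i w x ^ 2 := by
    intro x hx
    have h4 := hW x (Lt_supp hx) hx.1
    have h5 : φ x ≤ M := by
      have := hM x
      rw [Real.norm_eq_abs, abs_of_nonneg (hφ0 x)] at this
      exact this
    have h6 : u x ≤ t * M := hx.2.trans (mul_le_mul_of_nonneg_left h5 ht.le)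
    have h7 : C₁ * u x ≤ C₁ * (t * M) := mul_le_mul_of_nonneg_left h6 hC₁
    have h8 : t * (4 * C₁ * M + 1) ≤ 1 := by
      rwa [le_div_iff₀ (by positivity)] at htt
    have h9 : Wd w x ≤ C₁ * u x := (le_abs_self _).trans h4
    unfold Wd at h9
    nlinarith
  have h4 : (1 / 2) * volume.real (Lt u φ t) ≤ ∫ x in Lt u φ t, ∑ i, pd i w x ^ 2 := by
    have h5 := setIntegral_mono_on (integrableOn_const (C := (1 / 2 : ℝ)) (Lt_fin hφs).ne) iL
      hLm h3
    rw [setIntegral_const, smul_eq_mul] at h5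
    linarith
  have h5 : |∫ x in Pt u φ t, ∑ i, pd i w x * pd i φ x| ≤ C₂ := by
    refine (abs_integral_le_integral_abs).trans ?_
    refine setIntegral_mono_set iPos.abs ?_ (Pt_sub hφ0 ht).eventuallyLE
    filter_upwards with x
    exact abs_nonneg _
  have h6 : -(t * ∫ x in Pt u φ t, ∑ i, pd i w x * pd i φ x) ≤ t * C₂ := by
    rw [← mul_neg]
    exact mul_le_mul_of_nonneg_left ((neg_le_abs _).trans h5) ht.le
  linarith

theorem lap_Wd (h : SmoothCone u w U) {x : Ed d} (hx : x ∈ Pos u) :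
    ∑ i, pd i (pd i (Wd w)) x = - ∑ i, ∑ j, pd i (pd j w) x ^ 2 := by
  have hxU := h.pos_sub hx
  have hd : ∀ j, DifferentiableAt ℝ (pd j w) x := fun j =>
    ((h.contDiffOn_pdw j).contDiffAt (h.isOpen.mem_nhds hxU)).differentiableAt (by simp)
  have hdd : ∀ i j, DifferentiableAt ℝ (pd i (pd j w)) x := fun i j =>
    ((h.contDiffOn_pdpdw i j).contDiffAt (h.isOpen.mem_nhds hxU)).differentiableAt (by simp)
  have h1 : ∀ i, pd i (pd i (Wd w)) x =
      - ∑ j, (pd i (pd i (pd j w)) x * pd j w x + pd i (pd j w) x ^ 2) := by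
    intro i
    have e1 : pd i (Wd w) =ᶠ[𝓝 x] fun y => - ∑ j, pd i (pd j w) y * pd j w y := by
      filter_upwards [h.isOpen.mem_nhds hxU] with y hy
      exact h.pd_Wd hy i
    rw [pd_congr e1, pd_neg, pd_sum Finset.univ (fun j y => pd i (pd j w) y * pd j w y)
      (fun j _ => (hdd i j).mul (hd j))]
    congr 1
    refine Finset.sum_congr rfl fun j _ => ?_
    rw [pd_mul (hdd i j) (hd j)]
    ring
  rw [Finset.sum_congr rfl fun i _ => h1 i, Finset.sum_neg_distrib]
  congr 1
  simp only [Finset.sum_add_distrib]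
  rw [Finset.sum_comm]
  have h2 : ∀ j, ∑ i, pd i (pd i (pd j w)) x * pd j w x = 0 := by
    intro j
    rw [← Finset.sum_mul, sum_pd_pd_pd h.isOpen_pos (h.smooth.mono h.pos_sub) h.harm hx j,
      zero_mul]
  rw [Finset.sum_congr rfl fun j _ => h2 j]
  simp

theorem contOn_pdWd (h : SmoothCone u w U) (i : Fin d) : ContinuousOn (pd i (Wd w)) U :=
  (contDiffOn_pd (n := ∞) (m := ∞) h.isOpen h.Wd_smooth (by simp)).continuousOn

theorem contOn_S (h : SmoothCone u w U) (hφ : ContDiff ℝ ∞ φ) :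
    ContinuousOn (fun x => φ x * ∑ i, pd i φ x * pd i (Wd w) x) U :=
  hφ.continuous.continuousOn.mul (continuousOn_finsetSum _ fun i _ =>
    (contDiff_pd (n := ∞) (m := ∞) hφ (by simp)).continuous.continuousOn.mul
      (h.contOn_pdWd i))

theorem contOn_D (h : SmoothCone u w U) :
    ContinuousOn (fun x => ∑ i, pd i (pd i (Wd w)) x) U :=
  continuousOn_finsetSum _ fun i _ =>
    (contDiffOn_pd (n := ∞) (m := ∞) h.isOpen
      (contDiffOn_pd (n := ∞) (m := ∞) h.isOpen h.Wd_smooth (by simp)) (by simp)).continuousOn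

theorem int_S (h : SmoothCone u w U) (hφ : ContDiff ℝ ∞ φ) (hφs : HasCompactSupport φ)
    (h0 : (0 : Ed d) ∉ tsupport φ) {A : Set (Ed d)} (hA : MeasurableSet A) (hAP : A ⊆ Pos u) :
    IntegrableOn (fun x => φ x * ∑ i, pd i φ x * pd i (Wd w) x) A := by
  refine h.integrableOn_supp hφs h0 (h.contOn_S hφ) ?_ hA hAP
  intro x _ hx
  rw [image_eq_zero_of_notMem_tsupport hx, zero_mul]

/-- second identity, for the defect `Wd` -/
theorem second_id (h : SmoothCone u w U) (hφ : ContDiff ℝ ∞ φ)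
    (hφ0 : ∀ x, 0 ≤ φ x) (hφs : HasCompactSupport φ) (h0 : (0 : Ed d) ∉ tsupport φ)
    (ht : 0 < t) :
    (∫ x in Lt u φ t, 2 * (w x * ∑ i, pd i w x * pd i (Wd w) x)) =
      - ∫ x in Pos u, ((Pt u φ t).indicator
        (fun x => 2 * t ^ 2 * (φ x * ∑ i, pd i φ x * pd i (Wd w) x)) x +
        min (u x) (t * φ x) ^ 2 * ∑ i, pd i (pd i (Wd w)) x) := by
  have hφc : Continuous φ := hφ.continuous
  have hLm : MeasurableSet (Lt u φ t) := Lt_meas h.cont hφc
  have hPm : MeasurableSet (Pt u φ t) := Pt_meas h.cont hφc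
  have key := h.smin hφ hφ0 hφs h0 ht (G := fun s => s ^ 2) (contDiff_id.pow 2) (by simp)
    (fun i => pd i (Wd w))
    (fun i => contDiffOn_pd (n := ∞) (m := ∞) h.isOpen h.Wd_smooth (by simp))
  have hderiv : ∀ s : ℝ, deriv (fun s : ℝ => s ^ 2) s = 2 * s := fun s => by simp
  simp only [hderiv] at key
  have e1 : ∀ x ∈ Pos u, (∑ i, (2 * min (u x) (t * φ x) *
      (if u x ≤ t * φ x then pd i w x else t * pd i φ x) * pd i (Wd w) x +
        min (u x) (t * φ x) ^ 2 * pd i (pd i (Wd w)) x)) =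
      (Lt u φ t).indicator (fun x => 2 * (w x * ∑ i, pd i w x * pd i (Wd w) x)) x +
      ((Pt u φ t).indicator
        (fun x => 2 * t ^ 2 * (φ x * ∑ i, pd i φ x * pd i (Wd w) x)) x +
        min (u x) (t * φ x) ^ 2 * ∑ i, pd i (pd i (Wd w)) x) := by
    intro x hx
    rw [Finset.sum_add_distrib, ← Finset.mul_sum, ← add_assoc]
    congr 1
    rcases le_or_gt (u x) (t * φ x) with h1 | h1
    · have hxL : x ∈ Lt u φ t := ⟨hx, h1⟩
      have hxP : x ∉ Pt u φ t := fun h2 => absurd h2 (not_lt.2 h1)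
      rw [indicator_of_mem hxL, indicator_of_notMem hxP, add_zero, Finset.mul_sum,
        Finset.mul_sum, h.eq x hx]
      refine Finset.sum_congr rfl fun i _ => ?_
      rw [if_pos h1, min_eq_left h1]
      ring
    · have hxP : x ∈ Pt u φ t := h1
      have hxL : x ∉ Lt u φ t := fun h2 => absurd h1 (not_lt.2 h2.2)
      rw [indicator_of_mem hxP, indicator_of_notMem hxL, zero_add, Finset.mul_sum,
        Finset.mul_sum]
      refine Finset.sum_congr rfl fun i _ => ?_
      rw [if_neg (not_le.2 h1), min_eq_right h1.le]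
      ring
  have cL : ContinuousOn (fun x => 2 * (w x * ∑ i, pd i w x * pd i (Wd w) x)) U :=
    continuousOn_const.mul (h.smooth.continuousOn.mul (continuousOn_finsetSum _ fun i _ =>
      (h.contDiffOn_pdw i).continuousOn.mul (h.contOn_pdWd i)))
  have iL : IntegrableOn ((Lt u φ t).indicator
      (fun x => 2 * (w x * ∑ i, pd i w x * pd i (Wd w) x))) (Pos u) := by
    rw [integrableOn_indicator_iff hLm]
    exact (h.int_Lt (t := t) hφs h0 cL).mono_set inter_subset_left
  have iP : IntegrableOn ((Pt u φ t).indicator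
        (fun x => 2 * t ^ 2 * (φ x * ∑ i, pd i φ x * pd i (Wd w) x))) (Pos u) := by
    rw [integrableOn_indicator_iff hPm]
    have h1 : IntegrableOn (fun x => 2 * t ^ 2 * (φ x * ∑ i, pd i φ x * pd i (Wd w) x))
        (Pt u φ t) := (h.int_S hφ hφs h0 hPm (Pt_sub hφ0 ht)).const_mul _
    exact h1.mono_set inter_subset_left
  have iM : IntegrableOn (fun x => min (u x) (t * φ x) ^ 2 * ∑ i, pd i (pd i (Wd w)) x)
      (Pos u) := by
    refine h.integrableOn_supp hφs h0 ?_ ?_ h.isOpen_pos.measurableSet subset_rfl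
    · exact (((h.cont.min (continuous_const.mul hφc)).continuousOn).pow 2).mul h.contOn_D
    · intro x hx hxs
      rw [image_eq_zero_of_notMem_tsupport hxs, mul_zero, min_eq_right (le_of_lt hx)]
      ring
  have iPM : IntegrableOn (fun x => (Pt u φ t).indicator
        (fun x => 2 * t ^ 2 * (φ x * ∑ i, pd i φ x * pd i (Wd w) x)) x +
        min (u x) (t * φ x) ^ 2 * ∑ i, pd i (pd i (Wd w)) x) (Pos u) := iP.add iM
  rw [setIntegral_congr_fun h.isOpen_pos.measurableSet e1, integral_add iL iPM,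
    setIntegral_indicator hLm, inter_eq_right.2 Lt_sub] at key
  linarith

end SmoothCone

/-- **Minimality implies stability.** -/
theorem stab_of_min (h : SmoothCone u w U) (hm : LipMin u) : Stab u w := by
  intro φ hφ hφ0 hφs h0
  have hφc : Continuous φ := hφ.continuous
  have hPo : MeasurableSet (Pos u) := h.isOpen_pos.measurableSet
  obtain ⟨C, t₀, hC, ht₀, hvol⟩ := h.vol_le hφ hφ0 hφs h0
  obtain ⟨C₂, hC₂, hW⟩ := h.Wd_sq hφs.isCompact h0
  obtain ⟨M, hM⟩ := hφs.exists_bound_of_continuous hφc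
  have hM0 : 0 ≤ M := (norm_nonneg _).trans (hM 0)
  have hM' : ∀ x, φ x ≤ M := by
    intro x
    have := hM x
    rw [Real.norm_eq_abs, abs_of_nonneg (hφ0 x)] at this
    exact this
  set E : ℝ := ∫ x in Pos u, ∑ i, pd i φ x ^ 2 with hE
  set S : Ed d → ℝ := fun x => φ x * ∑ i, pd i φ x * pd i (Wd w) x with hS
  set D : Ed d → ℝ := fun x => ∑ i, pd i (pd i (Wd w)) x with hD
  -- the inequality for fixed `t`
  have hfix : ∀ t : ℝ, 0 < t → t ≤ t₀ →
      -(∫ x in Pos u, ((Pt u φ t).indicator (fun x => 2 * S x) x +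
        (min (u x) (t * φ x) / t) ^ 2 * D x)) ≤ E + 2 * C₂ * M ^ 2 * C * t := by
    intro t ht htt
    have hLm : MeasurableSet (Lt u φ t) := Lt_meas h.cont hφc
    have h1 := h.Wd_upper hm hφ hφ0 hφs h0 ht
    have h2 := h.second_id hφ hφ0 hφs h0 ht
    have h3 := hvol t ht htt
    have cL : ContinuousOn (fun x => 2 * (w x * ∑ i, pd i w x * pd i (Wd w) x)) U :=
      continuousOn_const.mul (h.smooth.continuousOn.mul (continuousOn_finsetSum _ fun i _ =>
        (h.contDiffOn_pdw i).continuousOn.mul (h.contOn_pdWd i)))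
    have iL := h.int_Lt (t := t) hφs h0 cL
    have cW : ContinuousOn (fun x => 2 * Wd w x) U :=
      continuousOn_const.mul h.Wd_smooth.continuousOn
    have iW := h.int_Lt (t := t) hφs h0 cW
    have iC : IntegrableOn (fun _ : Ed d => 2 * C₂ * (t * M) ^ 2) (Lt u φ t) :=
      integrableOn_const (SmoothCone.Lt_fin hφs).ne
    have h4 : (∫ x in Lt u φ t, 2 * (w x * ∑ i, pd i w x * pd i (Wd w) x)) -
        2 * C₂ * (t * M) ^ 2 * volume.real (Lt u φ t) ≤ ∫ x in Lt u φ t, 2 * Wd w x := by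
      have iLC : IntegrableOn (fun x => 2 * (w x * ∑ i, pd i w x * pd i (Wd w) x) -
          2 * C₂ * (t * M) ^ 2) (Lt u φ t) := iL.sub iC
      have h5 := setIntegral_mono_on iLC iW hLm (fun x hx => ?_)
      · rw [integral_sub iL iC, setIntegral_const, smul_eq_mul] at h5
        linarith
      · have h6 := hW x (Lt_supp hx) hx.1
        have h7 : u x ^ 2 ≤ (t * M) ^ 2 :=
          pow_le_pow_left₀ (h.nonneg x)
            (hx.2.trans (mul_le_mul_of_nonneg_left (hM' x) ht.le)) 2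
        have h8 := mul_le_mul_of_nonneg_left h7 hC₂
        have h9 := (abs_le.1 h6).1
        linarith
    have h5 : 2 * C₂ * (t * M) ^ 2 * volume.real (Lt u φ t) ≤
        2 * C₂ * (t * M) ^ 2 * (C * t) := mul_le_mul_of_nonneg_left h3 (by positivity)
    have h6 : ∫ x in Pos u, ((Pt u φ t).indicator
        (fun x => 2 * t ^ 2 * (φ x * ∑ i, pd i φ x * pd i (Wd w) x)) x +
        min (u x) (t * φ x) ^ 2 * ∑ i, pd i (pd i (Wd w)) x) =
        t ^ 2 * ∫ x in Pos u, ((Pt u φ t).indicator (fun x => 2 * S x) x +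
        (min (u x) (t * φ x) / t) ^ 2 * D x) := by
      rw [← integral_const_mul]
      refine setIntegral_congr_fun hPo fun x _ => ?_
      by_cases hx : x ∈ Pt u φ t
      · simp only [indicator_of_mem hx, hS, hD]
        field_simp
      · simp only [indicator_of_notMem hx, hD]
        field_simp
        ring
    rw [h2, h6] at h4
    have h7 : t ^ 2 * (-(∫ x in Pos u, ((Pt u φ t).indicator (fun x => 2 * S x) x +
        (min (u x) (t * φ x) / t) ^ 2 * D x))) ≤
        t ^ 2 * (E + 2 * C₂ * M ^ 2 * C * t) := by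
      have e : t ^ 2 * (E + 2 * C₂ * M ^ 2 * C * t) =
          t ^ 2 * E + 2 * C₂ * (t * M) ^ 2 * (C * t) := by ring
      rw [e]
      linarith
    exact le_of_mul_le_mul_left h7 (by positivity)
  -- the limit
  set τ : ℕ → ℝ := fun n => t₀ / ((n : ℝ) + 1) with hτ
  have hτ0 : ∀ n, 0 < τ n := fun n => by
    rw [hτ]
    positivity
  have hτ1 : ∀ n, τ n ≤ t₀ := fun n => by
    rw [hτ]
    exact div_le_self ht₀.le (by have : (0 : ℝ) ≤ n := n.cast_nonneg; linarith)
  have hτl : Tendsto τ atTop (𝓝 0) := by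
    have h1 := (tendsto_one_div_add_atTop_nhds_zero_nat (𝕜 := ℝ)).const_mul t₀
    rw [mul_zero] at h1
    refine h1.congr fun n => ?_
    rw [hτ]
    ring
  have iS : IntegrableOn S (Pos u) := h.int_S hφ hφs h0 hPo subset_rfl
  have iD : IntegrableOn (fun x => φ x ^ 2 * D x) (Pos u) := by
    refine h.integrableOn_supp hφs h0 ?_ ?_ hPo subset_rfl
    · exact (hφc.continuousOn.pow 2).mul h.contOn_D
    · intro x _ hxs
      rw [image_eq_zero_of_notMem_tsupport hxs]
      ring
  have hlim : Tendsto (fun n => -(∫ x in Pos u, ((Pt u φ (τ n)).indicator (fun x => 2 * S x) x +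
        (min (u x) (τ n * φ x) / τ n) ^ 2 * D x))) atTop
      (𝓝 (-(∫ x in Pos u, (2 * S x + φ x ^ 2 * D x)))) := by
    refine Tendsto.neg ?_
    refine tendsto_integral_of_dominated_convergence
      (fun x => |2 * S x| + |φ x ^ 2 * D x|) ?_ ?_ ?_ ?_
    · intro n
      have hPm : MeasurableSet (Pt u φ (τ n)) := Pt_meas h.cont hφc
      have c1 : ContinuousOn (fun x => 2 * S x) (Pos u) :=
        (continuousOn_const.mul (h.contOn_S hφ)).mono h.pos_sub
      refine AEStronglyMeasurable.add ?_ ?_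
      · exact (c1.aestronglyMeasurable hPo).indicator hPm
      · refine ContinuousOn.aestronglyMeasurable ?_ hPo
        refine ContinuousOn.mul ?_ (h.contOn_D.mono h.pos_sub)
        exact (((h.cont.min (continuous_const.mul hφc)).div_const _).pow 2).continuousOn
    · exact ((iS.const_mul 2).abs).add iD.abs
    · intro n
      filter_upwards [ae_restrict_mem hPo] with x hx
      rw [Real.norm_eq_abs]
      refine (abs_add_le _ _).trans (add_le_add ?_ ?_)
      · by_cases hx' : x ∈ Pt u φ (τ n)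
        · rw [indicator_of_mem hx']
        · rw [indicator_of_notMem hx', abs_zero]
          exact abs_nonneg _
      · rw [abs_mul, abs_mul, abs_of_nonneg (sq_nonneg (min (u x) (τ n * φ x) / τ n)),
          abs_of_nonneg (sq_nonneg (φ x))]
        refine mul_le_mul_of_nonneg_right ?_ (abs_nonneg _)
        have h1 : 0 ≤ min (u x) (τ n * φ x) :=
          le_min (h.nonneg x) (mul_nonneg (hτ0 n).le (hφ0 x))
        refine pow_le_pow_left₀ (div_nonneg h1 (hτ0 n).le) ?_ 2
        rw [div_le_iff₀ (hτ0 n), mul_comm (φ x)]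
        exact min_le_right _ _
    · filter_upwards [ae_restrict_mem hPo] with x hx
      refine tendsto_const_nhds.congr' ?_
      have h1 : Tendsto (fun n => τ n * φ x) atTop (𝓝 (0 * φ x)) := hτl.mul_const _
      rw [zero_mul] at h1
      filter_upwards [h1.eventually (gt_mem_nhds hx)] with n hn
      have hxP : x ∈ Pt u φ (τ n) := hn
      rw [indicator_of_mem hxP, min_eq_right (le_of_lt hn),
        mul_div_cancel_left₀ _ (hτ0 n).ne']
  have hlim2 : Tendsto (fun n => E + 2 * C₂ * M ^ 2 * C * τ n) atTop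
      (𝓝 (E + 2 * C₂ * M ^ 2 * C * 0)) := (hτl.const_mul _).const_add _
  have hfinal := le_of_tendsto_of_tendsto' hlim hlim2
    (fun n => hfix (τ n) (hτ0 n) (hτ1 n))
  rw [mul_zero, add_zero, ← integral_neg] at hfinal
  refine le_trans (le_of_eq ?_) hfinal
  refine setIntegral_congr_fun hPo fun x hx => ?_
  have hxU := h.pos_sub hx
  simp only [hS, hD]
  rw [h.lap_Wd hx]
  have e1 : ∀ i, pd i φ x * pd i (Wd w) x =
      - ∑ j, pd i φ x * pd i (pd j w) x * pd j w x := by
    intro i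
    rw [h.pd_Wd hxU i, mul_neg, Finset.mul_sum]
    congr 1
    refine Finset.sum_congr rfl fun j _ => ?_
    ring
  simp only [e1, Finset.sum_neg_distrib]
  ring

end Vale.Agent.P098
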