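import Vale.Agent.Lib.P098.Var.Base

/-!
# P098: local description of the free boundary, estimates near the free boundary
-/

open MeasureTheory Set Filter Topology
open scoped ContDiff

namespace Vale.Agent.P098

variable {d : ℕ} {u w : Ed d → ℝ} {U : Set (Ed d)}

/-- the gradient as a vector -/
noncomputable def gr (f : Ed d → ℝ) (x : Ed d) : Ed d := WithLp.toLp 2 fun i => pd i f x

theorem fderiv_apply_eq (f : Ed d → ℝ) (x v : Ed d) :
    fderiv ℝ f x v = ∑ i, v i * pd i f x := by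
  have h : v = ∑ i, v i • (EuclideanSpace.single i (1 : ℝ) : Ed d) := by
    ext j
    simp [Finset.sum_apply, Pi.single_apply]
  conv_lhs => rw [h]
  rw [map_sum]
  refine Finset.sum_congr rfl fun i _ => ?_
  rw [map_smul]
  rfl

theorem fderiv_gr (f : Ed d → ℝ) (x z : Ed d) :
    fderiv ℝ f x (gr f z) = ∑ i, pd i f z * pd i f x := by
  rw [fderiv_apply_eq]
  rfl

theorem norm_gr_sq (f : Ed d → ℝ) (x : Ed d) : ‖gr f x‖ ^ 2 = ∑ i, pd i f x ^ 2 := by
  rw [EuclideanSpace.norm_sq_eq]
  refine Finset.sum_congr rfl fun i _ => ?_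
  rw [Real.norm_eq_abs, sq_abs]
  rfl

theorem norm_fderiv_sq (f : Ed d → ℝ) (x : Ed d) : ‖fderiv ℝ f x‖ ^ 2 = ∑ i, pd i f x ^ 2 := by
  have h : fderiv ℝ f x = InnerProductSpace.toDual ℝ (Ed d) (gr f x) := by
    ext v
    rw [fderiv_apply_eq, InnerProductSpace.toDual_apply_apply, PiLp.inner_apply]
    refine Finset.sum_congr rfl fun i _ => ?_
    simp [gr]
  rw [h, LinearIsometryEquiv.norm_map, norm_gr_sq]

namespace SmoothCone

theorem norm_gr (h : SmoothCone u w U) {z : Ed d} (hz : z ∈ frontier (Pos u)) (hz0 : z ≠ 0) :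
    ‖gr w z‖ = 1 := by
  have h1 := norm_gr_sq w z
  rw [h.grad z hz hz0] at h1
  have h2 : 0 ≤ ‖gr w z‖ := norm_nonneg _
  nlinarith

/-- a preconnected set on which `w > 0` and which meets the positivity set lies in it -/
theorem subset_pos (h : SmoothCone u w U) {S : Set (Ed d)} (hS : IsPreconnected S)
    (hw : ∀ y ∈ S, y ≠ 0 ∧ 0 < w y) {p : Ed d} (hp : p ∈ S) (hpP : p ∈ Pos u) : S ⊆ Pos u := by
  refine hS.subset_of_closure_inter_subset h.isOpen_pos ⟨p, hp, hpP⟩ ?_
  rintro y ⟨hy1, hy2⟩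
  have h1 := h.eq_closure hy1 (hw y hy2).1
  change 0 < u y
  rw [← h1]
  exact (hw y hy2).2

/-- a ball around a free boundary point in which `w` increases in the direction of its gradient
at the centre -/
theorem exists_ball (h : SmoothCone u w U) {z : Ed d} (hz : z ∈ frontier (Pos u)) (hz0 : z ≠ 0) :
    ∃ r > 0, Metric.ball z r ⊆ U ∧ (0 : Ed d) ∉ Metric.ball z r ∧
      ∀ y ∈ Metric.ball z r, 1 / 2 ≤ fderiv ℝ w y (gr w z) := by
  have hzU := h.frontier_sub hz hz0
  have h1 : ContinuousAt (fun y => fderiv ℝ w y (gr w z)) z := by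
    have h2 : ContDiffAt ℝ 0 (fderiv ℝ w) z := (h.smoothAt hzU).fderiv_right (by simp)
    exact h2.continuousAt.clm_apply continuousAt_const
  have h3 : fderiv ℝ w z (gr w z) = 1 := by
    rw [fderiv_gr, ← h.grad z hz hz0]
    refine Finset.sum_congr rfl fun i _ => ?_
    ring
  have h4 : ∀ᶠ y in 𝓝 z, 1 / 2 ≤ fderiv ℝ w y (gr w z) := by
    have h5 := h1.eventually (lt_mem_nhds (show (1 / 2 : ℝ) < fderiv ℝ w z (gr w z) by
      rw [h3]; norm_num))
    filter_upwards [h5] with y hy
    exact hy.le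
  have h5 : ∀ᶠ y in 𝓝 z, y ∈ U := h.isOpen.mem_nhds hzU
  have h6 : ∀ᶠ y in 𝓝 z, y ≠ 0 := isOpen_ne.mem_nhds hz0
  obtain ⟨r, hr, hr2⟩ := Metric.eventually_nhds_iff_ball.1 (h4.and (h5.and h6))
  exact ⟨r, hr, fun y hy => (hr2 y hy).2.1, fun h0 => (hr2 0 h0).2.2 rfl,
    fun y hy => (hr2 y hy).1⟩

/-- growth of `w` along the direction of the gradient -/
theorem growth (h : SmoothCone u w U) {z e : Ed d} {r : ℝ} (hU : Metric.ball z r ⊆ U)
    (hd : ∀ y ∈ Metric.ball z r, 1 / 2 ≤ fderiv ℝ w y e) {y : Ed d} {s : ℝ} (hs : 0 ≤ s)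
    (hy : y ∈ Metric.ball z r) (hy' : y + s • e ∈ Metric.ball z r) :
    w y + s / 2 ≤ w (y + s • e) := by
  -- the segment lies in the ball
  have hseg : ∀ t ∈ Icc (0 : ℝ) s, y + t • e ∈ Metric.ball z r := by
    intro t ht
    rcases hs.eq_or_lt with hs0 | hs0
    · rw [← hs0] at ht
      have : t = 0 := le_antisymm ht.2 ht.1
      rw [this, zero_smul, add_zero]
      exact hy
    · have hc := (convex_ball z r) hy hy' (a := 1 - t / s) (b := t / s)
        (by rw [sub_nonneg, div_le_one hs0]; exact ht.2) (div_nonneg ht.1 hs0.le) (by ring)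
      have e1 : (1 - t / s) • y + (t / s) • (y + s • e) = y + t • e := by
        rw [smul_add, smul_smul, div_mul_cancel₀ _ hs0.ne', ← add_assoc, ← add_smul]
        simp
      rwa [e1] at hc
  have hder : ∀ t ∈ Icc (0 : ℝ) s, HasDerivAt (fun t : ℝ => w (y + t • e))
      (fderiv ℝ w (y + t • e) e) t := by
    intro t ht
    have h1 : DifferentiableAt ℝ w (y + t • e) :=
      (h.smoothAt (hU (hseg t ht))).differentiableAt (by simp)
    have h2 : HasDerivAt (fun t : ℝ => y + t • e) e t := by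
      simpa using ((hasDerivAt_id t).smul_const e).const_add y
    exact h1.hasFDerivAt.comp_hasDerivAt t h2
  have hmono : MonotoneOn (fun t : ℝ => w (y + t • e) - t / 2) (Icc 0 s) := by
    refine monotoneOn_of_deriv_nonneg (convex_Icc 0 s) ?_ ?_ ?_
    · intro t ht
      exact ((hder t ht).continuousAt.sub (continuousAt_id.div_const 2)).continuousWithinAt
    · intro t ht
      rw [interior_Icc] at ht
      have h1 := (hder t ⟨ht.1.le, ht.2.le⟩)
      exact (h1.differentiableAt.sub (differentiableAt_id.div_const 2)).differentiableWithinAt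
    · intro t ht
      rw [interior_Icc] at ht
      have h1 := (hder t ⟨ht.1.le, ht.2.le⟩)
      have h2 : HasDerivAt (fun t : ℝ => w (y + t • e) - t / 2)
          (fderiv ℝ w (y + t • e) e - 1 / 2) t :=
        h1.sub ((hasDerivAt_id t).div_const 2)
      rw [h2.deriv]
      have := hd _ (hseg t ⟨ht.1.le, ht.2.le⟩)
      linarith
  have h1 := hmono (left_mem_Icc.2 hs) (right_mem_Icc.2 hs) hs
  simp only [zero_smul, add_zero, zero_div, sub_zero] at h1
  linarith

/-- near a free boundary point, every point of the positivity set is at distance at most `2 u`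
from the free boundary -/
theorem near (h : SmoothCone u w U) {z : Ed d} (hz : z ∈ frontier (Pos u)) (hz0 : z ≠ 0)
    {r : ℝ} (hr : 0 < r) :
    ∃ r' > 0, ∀ x ∈ Metric.ball z r', x ∈ Pos u → ∃ z' ∈ frontier (Pos u),
      z' ∈ Metric.ball z r ∧ z' ≠ 0 ∧ ‖x - z'‖ ≤ 2 * u x := by
  obtain ⟨r1, hr1, hU, h0, hd⟩ := h.exists_ball hz hz0
  set ρ := min r r1 with hρ
  have hρ0 : 0 < ρ := lt_min hr hr1
  have hu : ∀ᶠ y in 𝓝 z, u y < ρ / 8 := by
    have h1 := h.cont.continuousAt (x := z)
    have h2 : u z < ρ / 8 := by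
      rw [h.frontier_zero hz]
      positivity
    exact h1.eventually (gt_mem_nhds h2)
  obtain ⟨r2, hr2, hr2'⟩ := Metric.eventually_nhds_iff_ball.1 hu
  refine ⟨min r2 (ρ / 4), by positivity, fun x hx hxP => ?_⟩
  have hx1 : x ∈ Metric.ball z r2 := Metric.ball_subset_ball (min_le_left _ _) hx
  have hx2 : x ∈ Metric.ball z (ρ / 4) := Metric.ball_subset_ball (min_le_right _ _) hx
  have hux : u x < ρ / 8 := hr2' x hx1
  have hux0 : 0 < u x := hxP
  set e := gr w z with he
  have hen : ‖e‖ = 1 := h.norm_gr hz hz0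
  -- the segment from `x` downwards
  set S : Set (Ed d) := (fun t : ℝ => x - t • e) '' Icc 0 (2 * u x) with hS
  have hSb : S ⊆ Metric.ball z ρ := by
    rintro y ⟨t, ht, rfl⟩
    have h1 : dist (x - t • e) z ≤ ‖t • e‖ + dist x z := by
      calc dist (x - t • e) z ≤ dist (x - t • e) x + dist x z := dist_triangle _ _ _
        _ = ‖t • e‖ + dist x z := by rw [dist_eq_norm]; simp
    have h2 : ‖t • e‖ = t := by
      rw [norm_smul, hen, mul_one, Real.norm_eq_abs, abs_of_nonneg ht.1]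
    have h3 : dist x z < ρ / 4 := hx2
    rw [Metric.mem_ball]
    have := ht.2
    linarith
  have hSc : IsPreconnected S := by
    refine isPreconnected_Icc.image _ ?_
    exact (continuous_const.sub (continuous_id.smul continuous_const)).continuousOn
  have hxS : x ∈ S := ⟨0, ⟨le_rfl, by positivity⟩, by simp⟩
  have hball1 : Metric.ball z ρ ⊆ Metric.ball z r1 := Metric.ball_subset_ball (min_le_right _ _)
  have hball2 : Metric.ball z ρ ⊆ Metric.ball z r := Metric.ball_subset_ball (min_le_left _ _)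
  have hend : x - (2 * u x) • e ∈ S := ⟨2 * u x, ⟨by positivity, le_rfl⟩, rfl⟩
  have hne : ¬ S ⊆ Pos u := by
    intro hsub
    have h1 : 0 < u (x - (2 * u x) • e) := hsub hend
    have h2 := h.eq _ (hsub hend)
    have h3 := h.growth hU hd (y := x - (2 * u x) • e) (s := 2 * u x) (by positivity)
      (hball1 (hSb hend)) (by rw [sub_add_cancel]; exact hball1 (hSb hxS))
    rw [sub_add_cancel, h2, h.eq x hxP] at h3
    linarith
  obtain ⟨z', ⟨hz'c, hz'S⟩, hz'P⟩ : ∃ z' ∈ closure (Pos u) ∩ S, z' ∉ Pos u := by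
    by_contra hcon
    push Not at hcon
    exact hne (hSc.subset_of_closure_inter_subset h.isOpen_pos ⟨x, hxS, hxP⟩ hcon)
  have hz' : z' ∈ frontier (Pos u) := h.mem_frontier_of_closure hz'c hz'P
  refine ⟨z', hz', hball2 (hSb hz'S), ?_, ?_⟩
  · rintro rfl
    exact h0 (hball1 (hSb hz'S))
  · obtain ⟨t, ht, rfl⟩ := hz'S
    rw [sub_sub_cancel, norm_smul, hen, mul_one, Real.norm_eq_abs, abs_of_nonneg ht.1]
    exact ht.2

/-- near a free boundary point the free boundary contains the zero set of `w` -/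
theorem zero_set (h : SmoothCone u w U) {z : Ed d} (hz : z ∈ frontier (Pos u)) (hz0 : z ≠ 0) :
    ∀ᶠ y in 𝓝 z, w y = 0 → y ∈ frontier (Pos u) := by
  obtain ⟨r, hr, hU, h0, hd⟩ := h.exists_ball hz hz0
  set e := gr w z with he
  have hen : ‖e‖ = 1 := h.norm_gr hz hz0
  have hzc : z ∈ Metric.ball z r := Metric.mem_ball_self hr
  have htop : z + (r / 2) • e ∈ Metric.ball z r := by
    rw [Metric.mem_ball, dist_eq_norm, add_sub_cancel_left, norm_smul, hen, mul_one,
      Real.norm_eq_abs, abs_of_pos (by positivity)]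
    linarith
  have hwz : w z = 0 := by
    rw [h.eq_closure (frontier_subset_closure hz) hz0, h.frontier_zero hz]
  have h1 := h.growth hU hd (y := z) (s := r / 2) (by positivity) hzc htop
  have h2 : 0 < w (z + (r / 2) • e) := by
    rw [hwz] at h1
    linarith
  have h3 : ContinuousAt (fun y => w (y + (r / 2) • e)) z := by
    have h4 : ContinuousAt w (z + (r / 2) • e) := (h.smoothAt (hU htop)).continuousAt
    exact ContinuousAt.comp (f := fun y => y + (r / 2) • e) h4 (by fun_prop)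
  have h4 : ∀ᶠ y in 𝓝 z, 0 < w (y + (r / 2) • e) := h3.eventually (lt_mem_nhds h2)
  obtain ⟨r1, hr1, hr1'⟩ := Metric.eventually_nhds_iff_ball.1 h4
  set ρ := min r1 (r / 4) with hρ
  have hρ0 : 0 < ρ := by positivity
  obtain ⟨p, hpP, hpb⟩ : ∃ p ∈ Pos u, p ∈ Metric.ball z ρ := by
    have := Metric.mem_closure_iff.1 (frontier_subset_closure hz) ρ hρ0
    obtain ⟨p, hp1, hp2⟩ := this
    exact ⟨p, hp1, by rw [Metric.mem_ball, dist_comm]; exact hp2⟩
  have hb4 : ∀ y ∈ Metric.ball z ρ, ∀ t ∈ Icc (0 : ℝ) (r / 2), y + t • e ∈ Metric.ball z r := by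
    intro y hy t ht
    have h5 : dist (y + t • e) z ≤ ‖t • e‖ + dist y z := by
      calc dist (y + t • e) z ≤ dist (y + t • e) y + dist y z := dist_triangle _ _ _
        _ = ‖t • e‖ + dist y z := by rw [dist_eq_norm]; simp
    have h6 : ‖t • e‖ = t := by
      rw [norm_smul, hen, mul_one, Real.norm_eq_abs, abs_of_nonneg ht.1]
    have h7 : dist y z < ρ := hy
    have h8 : ρ ≤ r / 4 := min_le_right _ _
    rw [Metric.mem_ball]
    have := ht.2
    linarith
  have hne0 : ∀ y ∈ Metric.ball z r, y ≠ 0 := by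
    rintro y hy rfl
    exact h0 hy
  filter_upwards [Metric.ball_mem_nhds z hρ0] with y hy hwy
  -- segment A
  have hA : (fun t : ℝ => p + t • e) '' Icc 0 (r / 2) ⊆ Pos u := by
    refine h.subset_pos (isPreconnected_Icc.image _ (by fun_prop)) ?_
      (p := p) ⟨0, ⟨le_rfl, by positivity⟩, by simp⟩ hpP
    rintro q ⟨t, ht, rfl⟩
    have hq := hb4 p hpb t ht
    have h5 := h.growth hU hd (y := p) (s := t) ht.1
      (by simpa using hb4 p hpb 0 ⟨le_rfl, by positivity⟩) hq
    have h6 : 0 < w p := by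
      rw [h.eq p hpP]
      exact hpP
    have := ht.1
    exact ⟨hne0 _ hq, by change 0 < w (p + t • e); linarith⟩
  have hpt : p + (r / 2) • e ∈ Pos u := hA ⟨r / 2, ⟨by positivity, le_rfl⟩, rfl⟩
  -- segment B
  have hB : (fun q => q + (r / 2) • e) '' segment ℝ p y ⊆ Pos u := by
    refine h.subset_pos ((convex_segment p y).isPreconnected.image _ (by fun_prop)) ?_
      (p := p + (r / 2) • e) ⟨p, left_mem_segment ℝ p y, rfl⟩ hpt
    rintro q' ⟨q, hq, rfl⟩
    have hqb : q ∈ Metric.ball z ρ := (convex_ball z ρ).segment_subset hpb hy hq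
    exact ⟨hne0 _ (hb4 q hqb (r / 2) ⟨by positivity, le_rfl⟩),
      hr1' q (Metric.ball_subset_ball (min_le_left _ _) hqb)⟩
  have hyt : y + (r / 2) • e ∈ Pos u := hB ⟨y, right_mem_segment ℝ p y, rfl⟩
  -- segment C
  have hC : (fun t : ℝ => y + t • e) '' Ioc 0 (r / 2) ⊆ Pos u := by
    refine h.subset_pos (isPreconnected_Ioc.image _ (by fun_prop)) ?_
      (p := y + (r / 2) • e) ⟨r / 2, ⟨by positivity, le_rfl⟩, rfl⟩ hyt
    rintro q ⟨t, ht, rfl⟩
    have hq := hb4 y hy t ⟨ht.1.le, ht.2⟩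
    have h5 := h.growth hU hd (y := y) (s := t) ht.1.le
      (by simpa using hb4 y hy 0 ⟨le_rfl, by positivity⟩) hq
    have := ht.1
    exact ⟨hne0 _ hq, by change 0 < w (y + t • e); linarith⟩
  have hycl : y ∈ closure (Pos u) := by
    have h5 : Tendsto (fun t : ℝ => y + t • e) (𝓝[>] 0) (𝓝 y) := by
      have h6 : Tendsto (fun t : ℝ => y + t • e) (𝓝 0) (𝓝 (y + (0 : ℝ) • e)) := by
        have : Continuous (fun t : ℝ => y + t • e) := by fun_prop
        exact this.tendsto 0
      rw [zero_smul, add_zero] at h6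
      exact h6.mono_left nhdsWithin_le_nhds
    refine mem_closure_of_tendsto h5 ?_
    filter_upwards [Ioc_mem_nhdsGT (show (0 : ℝ) < r / 2 by positivity)] with t ht
    exact hC ⟨t, ht, rfl⟩
  refine h.mem_frontier_of_closure hycl fun hyP => ?_
  have h5 : 0 < u y := hyP
  rw [← h.eq y hyP, hwy] at h5
  exact lt_irrefl _ h5

end SmoothCone

end Vale.Agent.P098
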