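import Vale.Agent.Lib.P098.Sta.Bd
import Vale.Agent.Lib.P098.Var.Cert

/-!
# P098: the energy, minimality, and the comparison with the competitor `(u - tφ)_+`
-/

open MeasureTheory Set Filter Topology
open scoped ContDiff ENNReal

namespace Vale.Agent.P098

variable {d : ℕ} {u w : Ed d → ℝ} {U : Set (Ed d)}

/-- the one-phase (Alt–Caffarelli) energy `∫_B |∇v|² + 1_{v>0}` of `v` on the set `B` -/
noncomputable def energy (v : Ed d → ℝ) (B : Set (Ed d)) : ℝ≥0∞ :=
  ∫⁻ x in B, (ENNReal.ofReal (‖fderiv ℝ v x‖ ^ 2) + (Pos v).indicator (fun _ => 1) x)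

/-- `u` minimizes the one-phase energy among locally Lipschitz nonnegative competitors which
differ from `u` only in a compact subset of a ball. -/
def LipMin (u : Ed d → ℝ) : Prop :=
  ∀ (R : ℝ) (v : Ed d → ℝ), LocallyLipschitz v → (∀ x, 0 ≤ v x) →
    tsupport (fun x => v x - u x) ⊆ Metric.ball 0 R →
    energy u (Metric.ball 0 R) ≤ energy v (Metric.ball 0 R)

theorem energy_eq {v : Ed d → ℝ} (hv0 : ∀ x, 0 ≤ v x) (hm : MeasurableSet (Pos v))
    {B : Set (Ed d)} {g : Ed d → ℝ} (hg : ∀ x ∈ Pos v, ‖fderiv ℝ v x‖ ^ 2 = g x)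
    (hgi : IntegrableOn (fun x => g x + 1) (Pos v ∩ B)) :
    energy v B = ENNReal.ofReal (∫ x in Pos v ∩ B, (g x + 1)) := by
  unfold energy
  have h1 : (fun x => ENNReal.ofReal (‖fderiv ℝ v x‖ ^ 2) + (Pos v).indicator (fun _ => 1) x) =
      (Pos v).indicator (fun x => ENNReal.ofReal (g x + 1)) := by
    funext x
    by_cases hx : x ∈ Pos v
    · rw [indicator_of_mem hx, indicator_of_mem hx, hg x hx, ENNReal.ofReal_add _ zero_le_one,
        ENNReal.ofReal_one]
      rw [← hg x hx]
      positivity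
    · rw [indicator_of_notMem hx, indicator_of_notMem hx]
      have hx0 : v x = 0 := le_antisymm (not_lt.1 hx) (hv0 x)
      have hmin : IsLocalMin v x := by
        filter_upwards with y
        rw [hx0]
        exact hv0 y
      rw [hmin.fderiv_eq_zero]
      simp
  have hng : 0 ≤ᵐ[volume.restrict (Pos v ∩ B)] fun x => g x + 1 := by
    have : ∀ᵐ x ∂(volume.restrict (Pos v ∩ B)), x ∈ Pos v := by
      have h2 := ae_restrict_mem (μ := volume.restrict B) hm
      rwa [Measure.restrict_restrict hm] at h2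
    filter_upwards [this] with x hx
    change 0 ≤ g x + 1
    rw [← hg x hx]
    positivity
  rw [h1, setLIntegral_indicator hm, ofReal_integral_eq_lintegral_ofReal hgi hng]

namespace SmoothCone

/-- the gradient is bounded on the positivity set -/
theorem fderiv_bdd (h : SmoothCone u w U) :
    ∃ C : ℝ, 0 ≤ C ∧ ∀ x ∈ Pos u, ‖fderiv ℝ w x‖ ≤ C := by
  set K : Set (Ed d) := closure (Pos u) ∩ Metric.sphere (0 : Ed d) 1 with hKdef
  have hK : IsCompact K := (isCompact_sphere 0 1).inter_left isClosed_closure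
  have hKU : K ⊆ U := by
    rintro x ⟨hx1, hx2⟩
    refine h.sub ⟨hx1, ?_⟩
    rintro rfl
    simp at hx2
  have hc : ContinuousOn (fderiv ℝ w) U := h.smooth.continuousOn_fderiv_of_isOpen h.isOpen
    (by simp)
  obtain ⟨C, hC⟩ := hK.exists_bound_of_continuousOn (hc.mono hKU)
  refine ⟨max C 0, le_max_right _ _, fun x hx => ?_⟩
  have hx0 := h.ne_zero hx
  have hnx : 0 < ‖x‖ := norm_pos_iff.2 hx0
  have hr : 0 < ‖x‖⁻¹ := inv_pos.2 hnx
  have hy : ‖x‖⁻¹ • x ∈ Pos u := h.smul_mem hx hr
  have hyK : ‖x‖⁻¹ • x ∈ K := by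
    refine ⟨subset_closure hy, ?_⟩
    rw [mem_sphere_zero_iff_norm, norm_smul, norm_inv, norm_norm, inv_mul_cancel₀ hnx.ne']
  have key : fderiv ℝ w x = fderiv ℝ w (‖x‖⁻¹ • x) := by
    rw [(h.eventually_eq hx).fderiv_eq, (h.eventually_eq hy).fderiv_eq]
    have e1 : (fun z => u (‖x‖⁻¹ • z)) = fun z => ‖x‖⁻¹ • u z := by
      funext z
      rw [h.hom _ hr, smul_eq_mul]
    have e2 := fderiv_comp_smul (𝕜 := ℝ) (f := u) (x := x) (‖x‖⁻¹)
    have hdu : DifferentiableAt ℝ u x :=
      ((h.eventually_eq hx).differentiableAt_iff).1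
        ((h.smoothAt (h.pos_sub hx)).differentiableAt (by simp))
    rw [e1, fderiv_fun_const_smul hdu] at e2
    exact smul_right_injective _ hr.ne' e2
  rw [key]
  exact (hC _ hyK).trans (le_max_left _ _)

/-- `u` is Lipschitz -/
theorem lipschitz (h : SmoothCone u w U) : ∃ C : NNReal, LipschitzWith C u := by
  classical
  obtain ⟨C, hC0, hC⟩ := h.fderiv_bdd
  refine ⟨Real.toNNReal C, LipschitzWith.of_dist_le_mul fun x y => ?_⟩
  rw [Real.dist_eq, dist_eq_norm, Real.coe_toNNReal C hC0]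
  -- the regularisations
  have hreg : ∀ δ : ℝ, 0 < δ → ∀ z, HasFDerivAt (fun y => ramp δ (u y))
      (if z ∈ Pos u then chi (u z / δ) • fderiv ℝ w z else 0) z := by
    intro δ hδ z
    by_cases hz : z ∈ Pos u
    · rw [if_pos hz]
      have hw : HasFDerivAt w (fderiv ℝ w z) z :=
        ((h.smoothAt (h.pos_sub hz)).differentiableAt (by simp)).hasFDerivAt
      have hu : HasFDerivAt u (fderiv ℝ w z) z :=
        hw.congr_of_eventuallyEq (h.eventually_eq hz).symm
      have hr : HasDerivAt (ramp δ) (chi (u z / δ)) (u z) := by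
        have h1 := ((ramp_contDiff δ).differentiable (by simp) (u z)).hasDerivAt
        rwa [ramp_deriv hδ] at h1
      exact hr.comp_hasFDerivAt z hu
    · rw [if_neg hz]
      have h0 : u z < δ := by
        rw [h.eq_zero_of_notMem hz]
        exact hδ
      have h1 : (fun y => ramp δ (u y)) =ᶠ[𝓝 z] fun _ => 0 := by
        filter_upwards [h.cont.continuousAt.eventually (gt_mem_nhds h0)] with y hy
        exact ramp_zero hδ hy.le
      exact (hasFDerivAt_const (0 : ℝ) z).congr_of_eventuallyEq h1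
  have hbd : ∀ δ : ℝ, 0 < δ → |ramp δ (u x) - ramp δ (u y)| ≤ C * ‖x - y‖ := by
    intro δ hδ
    have h1 := convex_univ.norm_image_sub_le_of_norm_hasFDerivWithin_le (𝕜 := ℝ)
      (f := fun y => ramp δ (u y)) (C := C) (s := (univ : Set (Ed d)))
      (fun z _ => (hreg δ hδ z).hasFDerivWithinAt) ?_ (mem_univ y) (mem_univ x)
    · simpa [Real.norm_eq_abs] using h1
    · intro z _
      by_cases hz : z ∈ Pos u
      · rw [if_pos hz, norm_smul, Real.norm_eq_abs, abs_of_nonneg (chi_nonneg _)]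
        exact (mul_le_of_le_one_left (norm_nonneg _) (chi_le_one _)).trans (hC z hz)
      · rw [if_neg hz, norm_zero]
        exact hC0
  refine le_of_forall_pos_le_add fun ε hε => ?_
  have h1 := hbd (ε / 4) (by positivity)
  have h2 := ramp_ge (δ := ε / 4) (by positivity) (u x)
  have h3 := ramp_ge (δ := ε / 4) (by positivity) (u y)
  have h4 := ramp_le (δ := ε / 4) (by positivity) (h.nonneg x)
  have h5 := ramp_le (δ := ε / 4) (by positivity) (h.nonneg y)
  rw [abs_le] at h1 ⊢
  constructor <;> linarith [h1.1, h1.2]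

/-- bounded continuous functions on the positivity set are integrable on bounded subsets -/
theorem integrableOn_bdd (h : SmoothCone u w U) {g : Ed d → ℝ} (hg : ContinuousOn g U)
    {A : Set (Ed d)} (hA : MeasurableSet A) (hAP : A ⊆ Pos u) (hAf : volume A < ⊤) {C : ℝ}
    (hC : ∀ x ∈ A, |g x| ≤ C) : IntegrableOn g A := by
  have h1 : IntegrableOn (fun _ : Ed d => C) A := integrableOn_const hAf.ne
  refine Integrable.mono' h1 ?_ ?_
  · exact (hg.mono (hAP.trans h.pos_sub)).aestronglyMeasurable hA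
  · filter_upwards [ae_restrict_mem hA] with x hx
    rw [Real.norm_eq_abs]
    exact hC x hx

/-- functions continuous up to the boundary and supported in the support of a test function are
integrable on the positivity set -/
theorem integrableOn_supp (h : SmoothCone u w U) {φ : Ed d → ℝ} (hφs : HasCompactSupport φ)
    (h0 : (0 : Ed d) ∉ tsupport φ) {g : Ed d → ℝ} (hg : ContinuousOn g U)
    (hg0 : ∀ x ∈ Pos u, x ∉ tsupport φ → g x = 0) {A : Set (Ed d)} (hA : MeasurableSet A)
    (hAP : A ⊆ Pos u) : IntegrableOn g A := by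
  set K : Set (Ed d) := closure (Pos u) ∩ tsupport φ with hK
  have hKc : IsCompact K := hφs.isCompact.inter_left isClosed_closure
  have hKU : K ⊆ U := fun x hx => h.sub ⟨hx.1, fun e => h0 (e ▸ hx.2)⟩
  have h1 : IntegrableOn g K := (hg.mono hKU).integrableOn_compact hKc
  have h2 : Integrable (K.indicator g) := (integrable_indicator_iff hKc.measurableSet).2 h1
  refine (h2.integrableOn (s := A)).congr_fun (fun x hx => ?_) hA
  by_cases hxK : x ∈ K
  · rw [indicator_of_mem hxK]
  · rw [indicator_of_notMem hxK]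
    refine (hg0 x (hAP hx) fun hs => hxK ⟨subset_closure (hAP hx), hs⟩).symm

end SmoothCone

/-- the part of the positivity set where `u ≤ tφ` -/
def Lt (u φ : Ed d → ℝ) (t : ℝ) : Set (Ed d) := {x | 0 < u x ∧ u x ≤ t * φ x}

/-- the positivity set of `(u - tφ)_+` -/
def Pt (u φ : Ed d → ℝ) (t : ℝ) : Set (Ed d) := {x | t * φ x < u x}

section sets

variable {φ : Ed d → ℝ} {t : ℝ}

theorem Lt_sub : Lt u φ t ⊆ Pos u := fun _ hx => hx.1

theorem Pt_sub (hφ0 : ∀ x, 0 ≤ φ x) (ht : 0 < t) : Pt u φ t ⊆ Pos u := fun x hx =>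
  lt_of_le_of_lt (mul_nonneg ht.le (hφ0 x)) hx

theorem Lt_supp : Lt u φ t ⊆ tsupport φ := by
  intro x hx
  refine subset_closure ?_
  intro h0
  have h1 : φ x = 0 := h0
  have h2 := hx.2
  rw [h1, mul_zero] at h2
  exact absurd hx.1 (not_lt.2 h2)

theorem Lt_union (hφ0 : ∀ x, 0 ≤ φ x) (ht : 0 < t) : Pos u = Lt u φ t ∪ Pt u φ t := by
  ext x
  constructor
  · intro hx
    rcases le_or_gt (u x) (t * φ x) with h | h
    · exact Or.inl ⟨hx, h⟩
    · exact Or.inr h
  · rintro (hx | hx)
    · exact hx.1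
    · exact Pt_sub hφ0 ht hx

theorem Lt_disj : Disjoint (Lt u φ t) (Pt u φ t) := by
  rw [Set.disjoint_left]
  intro x hx hx'
  exact absurd hx' (not_lt.2 hx.2)

theorem Lt_meas (hu : Continuous u) (hφ : Continuous φ) : MeasurableSet (Lt u φ t) :=
  (isOpen_lt continuous_const hu).measurableSet.inter
    (isClosed_le hu (continuous_const.mul hφ)).measurableSet

theorem Pt_meas (hu : Continuous u) (hφ : Continuous φ) : MeasurableSet (Pt u φ t) :=
  (isOpen_lt (continuous_const.mul hφ) hu).measurableSet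

end sets

namespace SmoothCone

variable {φ : Ed d → ℝ} {t : ℝ}

theorem contOn_gw (h : SmoothCone u w U) : ContinuousOn (fun x => ∑ i, pd i w x ^ 2) U :=
  continuousOn_finsetSum _ fun i _ => (h.contDiffOn_pdw i).continuousOn.pow 2

/-- comparison of `u` with `(u - tφ)_+` -/
theorem compare (h : SmoothCone u w U) (hm : LipMin u) (hφ : ContDiff ℝ ∞ φ)
    (hφ0 : ∀ x, 0 ≤ φ x) (hφs : HasCompactSupport φ) (h0 : (0 : Ed d) ∉ tsupport φ)
    (ht : 0 < t) :
    ∫ x in Lt u φ t, ((∑ i, pd i w x ^ 2) + 1) ≤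
      ∫ x in Pt u φ t, (t ^ 2 * (∑ i, pd i φ x ^ 2) - 2 * t * ∑ i, pd i w x * pd i φ x) := by
  obtain ⟨C, hC0, hC⟩ := h.fderiv_bdd
  have hφc : Continuous φ := hφ.continuous
  have hpφ : ∀ i, Continuous (pd i φ) := fun i =>
    (contDiff_pd (n := ∞) (m := ∞) hφ (by simp)).continuous
  have hLm : MeasurableSet (Lt u φ t) := Lt_meas h.cont hφc
  have hPm : MeasurableSet (Pt u φ t) := Pt_meas h.cont hφc
  -- a ball containing the support
  obtain ⟨R, hR⟩ := hφs.isCompact.isBounded.subset_ball (0 : Ed d)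
  set B : Set (Ed d) := Metric.ball 0 R with hB
  have hBf : volume B < ⊤ := measure_ball_lt_top
  have hBm : MeasurableSet B := Metric.isOpen_ball.measurableSet
  -- the competitor
  set v : Ed d → ℝ := fun x => max (u x - t * φ x) 0 with hv
  have hv0 : ∀ x, 0 ≤ v x := fun x => le_max_right _ _
  have hvP : Pos v = Pt u φ t := by
    ext x
    change 0 < max (u x - t * φ x) 0 ↔ t * φ x < u x
    rw [lt_max_iff]
    constructor
    · rintro (h1 | h1)
      · linarith
      · exact absurd h1 (lt_irrefl _)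
    · intro h1
      left
      linarith
  have hvL : LocallyLipschitz v := by
    obtain ⟨C', hC'⟩ := h.lipschitz
    have h1 : LocallyLipschitz (fun x => t * φ x) :=
      ((contDiff_const.mul hφ : ContDiff ℝ ∞ fun x => t * φ x).of_le
        (by simp)).locallyLipschitz
    exact (hC'.locallyLipschitz.sub h1).max_const 0
  have hvs : tsupport (fun x => v x - u x) ⊆ B := by
    refine subset_trans (closure_mono ?_) hR
    intro x hx
    rw [Function.mem_support] at hx ⊢
    intro h1
    apply hx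
    simp only [hv, h1, mul_zero, sub_zero, max_eq_left (h.nonneg x), sub_self]
  have hmin := hm R v hvL hv0 hvs
  -- the energies
  have hgu : ∀ x ∈ Pos u, ‖fderiv ℝ u x‖ ^ 2 = ∑ i, pd i w x ^ 2 := by
    intro x hx
    rw [← (h.eventually_eq hx).fderiv_eq, norm_fderiv_sq]
  have hgv : ∀ x ∈ Pos v, ‖fderiv ℝ v x‖ ^ 2 = ∑ i, (pd i w x - t * pd i φ x) ^ 2 := by
    intro x hx
    have hx1 : x ∈ Pt u φ t := hvP ▸ hx
    have hx2 : x ∈ Pos u := Pt_sub hφ0 ht hx1
    have h1 : v =ᶠ[𝓝 x] fun y => w y - t * φ y := by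
      have h2 : Pt u φ t ∈ 𝓝 x :=
        (isOpen_lt (continuous_const.mul hφc) h.cont).mem_nhds hx1
      filter_upwards [h2, h.eventually_eq hx2] with y hy1 hy2
      simp only [hv]
      rw [hy2, max_eq_left]
      have : t * φ y < u y := hy1
      linarith
    rw [norm_fderiv_sq]
    refine Finset.sum_congr rfl fun i _ => ?_
    have hw : DifferentiableAt ℝ w x := (h.smoothAt (h.pos_sub hx2)).differentiableAt (by simp)
    have hp : DifferentiableAt ℝ φ x := (hφ.differentiable (by simp)) x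
    rw [pd_congr h1, pd_sub hw (hp.const_mul t), pd_const_mul t hp]
  have hgw : ∀ x ∈ Pos u, |∑ i, pd i w x ^ 2| ≤ C ^ 2 := by
    intro x hx
    rw [← norm_fderiv_sq, abs_of_nonneg (by positivity)]
    exact pow_le_pow_left₀ (norm_nonneg _) (hC x hx) 2
  have hiw : ∀ A : Set (Ed d), MeasurableSet A → A ⊆ Pos u → volume A < ⊤ →
      IntegrableOn (fun x => (∑ i, pd i w x ^ 2) + 1) A := by
    intro A hA hAP hAf
    exact (h.integrableOn_bdd h.contOn_gw hA hAP hAf (fun x hx => hgw x (hAP hx))).add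
      (integrableOn_const hAf.ne)
  have hid : ∀ A : Set (Ed d), MeasurableSet A → A ⊆ Pos u →
      IntegrableOn (fun x => t ^ 2 * (∑ i, pd i φ x ^ 2) - 2 * t * ∑ i, pd i w x * pd i φ x)
        A := by
    intro A hA hAP
    refine h.integrableOn_supp hφs h0 ?_ ?_ hA hAP
    · refine (continuousOn_const.mul (continuousOn_finsetSum _ fun i _ =>
        ((hpφ i).continuousOn.pow 2))).sub (continuousOn_const.mul
          (continuousOn_finsetSum _ fun i _ => ?_))
      exact (h.contDiffOn_pdw i).continuousOn.mul (hpφ i).continuousOn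
    · intro x _ hx
      have h1 : ∀ i, pd i φ x = 0 := fun i => pd_eq_zero_of_notMem_tsupport hx
      simp [h1]
  have hsplit : ∀ x, (∑ i, (pd i w x - t * pd i φ x) ^ 2) + 1 = ((∑ i, pd i w x ^ 2) + 1) +
      (t ^ 2 * (∑ i, pd i φ x ^ 2) - 2 * t * ∑ i, pd i w x * pd i φ x) := by
    intro x
    have h1 : ∀ i, (pd i w x - t * pd i φ x) ^ 2 = pd i w x ^ 2 + (t ^ 2 * pd i φ x ^ 2 -
        2 * t * (pd i w x * pd i φ x)) := fun i => by ring
    simp only [h1, Finset.sum_add_distrib, Finset.sum_sub_distrib, Finset.mul_sum]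
    ring
  have hfin : ∀ A : Set (Ed d), volume (A ∩ B) < ⊤ := fun A =>
    lt_of_le_of_lt (measure_mono inter_subset_right) hBf
  have hivB : IntegrableOn (fun x => (∑ i, (pd i w x - t * pd i φ x) ^ 2) + 1)
      (Pt u φ t ∩ B) := by
    have h1 := (hiw (Pt u φ t ∩ B) (hPm.inter hBm)
      (inter_subset_left.trans (Pt_sub hφ0 ht)) (hfin _)).add
      (hid (Pt u φ t ∩ B) (hPm.inter hBm) (inter_subset_left.trans (Pt_sub hφ0 ht)))
    refine h1.congr_fun (fun x _ => ?_) (hPm.inter hBm)
    exact (hsplit x).symm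
  have eu := energy_eq (B := B) h.nonneg h.isOpen_pos.measurableSet hgu
    (hiw _ (h.isOpen_pos.measurableSet.inter hBm) inter_subset_left (hfin _))
  have ev := energy_eq (B := B) (g := fun x => ∑ i, (pd i w x - t * pd i φ x) ^ 2) hv0
    (by rw [hvP]; exact hPm) hgv (by rw [hvP]; exact hivB)
  rw [eu, ev, hvP, ENNReal.ofReal_le_ofReal_iff (by
    refine integral_nonneg fun x => ?_
    positivity)] at hmin
  -- split the left hand side
  have hLB : Lt u φ t ⊆ B := Lt_supp.trans hR
  have hLf : volume (Lt u φ t) < ⊤ := lt_of_le_of_lt (measure_mono hLB) hBf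
  have e1 : Pos u ∩ B = Lt u φ t ∪ (Pt u φ t ∩ B) := by
    rw [Lt_union hφ0 ht, union_inter_distrib_right, inter_eq_left.2 hLB]
  rw [e1, setIntegral_union (Lt_disj.mono_right inter_subset_left) (hPm.inter hBm)
    (hiw _ hLm Lt_sub hLf) (hiw _ (hPm.inter hBm)
      (inter_subset_left.trans (Pt_sub hφ0 ht)) (hfin _))] at hmin
  simp only [hsplit] at hmin
  rw [integral_add (hiw _ (hPm.inter hBm)
      (inter_subset_left.trans (Pt_sub hφ0 ht)) (hfin _))
      (hid (Pt u φ t ∩ B) (hPm.inter hBm) (inter_subset_left.trans (Pt_sub hφ0 ht)))] at hmin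
  have e2 : ∫ x in Pt u φ t ∩ B,
      (t ^ 2 * (∑ i, pd i φ x ^ 2) - 2 * t * ∑ i, pd i w x * pd i φ x) =
      ∫ x in Pt u φ t,
      (t ^ 2 * (∑ i, pd i φ x ^ 2) - 2 * t * ∑ i, pd i w x * pd i φ x) := by
    refine (setIntegral_eq_of_subset_of_forall_sdiff_eq_zero hPm inter_subset_left ?_).symm
    rintro x ⟨hx1, hx2⟩
    have hxs : x ∉ tsupport φ := fun hs => hx2 ⟨hx1, hR hs⟩
    have h1 : ∀ i, pd i φ x = 0 := fun i => pd_eq_zero_of_notMem_tsupport hxs
    simp [h1]
  rw [e2] at hmin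
  linarith

end SmoothCone

end Vale.Agent.P098
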