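import Vale.Agent.Lib.P098.Sta.Comp
import Vale.Agent.Lib.P098.Sta.Smin

/-!
# P098: smooth cones without the equations

`Cone0 u w U`: `u` is continuous, nonnegative, one-homogeneous, and `w` is a smooth extension of
`u` across the free boundary (minus the origin).
The equations (`w` harmonic in the positivity set, gradient of length one on the free boundary) are
derived from minimality in the files `Fv1`, `Fv2`, `Fv3`.
-/

open MeasureTheory Set Filter Topology
open scoped ContDiff ENNReal

namespace Vale.Agent.P098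

/-- A continuous nonnegative one-homogeneous function `u` which is smooth up to the free boundary
away from the origin: `w` is smooth on an open set `U` containing the closure of the positivity set
minus the origin, and coincides with `u` on the positivity set. -/
structure Cone0 {d : ℕ} (u w : Ed d → ℝ) (U : Set (Ed d)) : Prop where
  hom : ∀ r : ℝ, 0 < r → ∀ x, u (r • x) = r * u x
  cont : Continuous u
  nonneg : ∀ x, 0 ≤ u x
  isOpen : IsOpen U
  sub : closure (Pos u) \ {0} ⊆ U
  smooth : ContDiffOn ℝ ∞ w U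
  eq : ∀ x ∈ Pos u, w x = u x

variable {d : ℕ} {u w : Ed d → ℝ} {U : Set (Ed d)}

namespace Cone0


theorem isOpen_pos (h : Cone0 u w U) : IsOpen (Pos u) :=
  isOpen_lt continuous_const h.cont

theorem zero (h : Cone0 u w U) : u 0 = 0 := by
  have h1 := h.hom 2 (by norm_num) 0
  rw [smul_zero] at h1
  linarith

theorem ne_zero (h : Cone0 u w U) {x : Ed d} (hx : x ∈ Pos u) : x ≠ 0 := by
  rintro rfl
  have h1 : 0 < u 0 := hx
  rw [h.zero] at h1
  exact lt_irrefl _ h1

theorem pos_sub (h : Cone0 u w U) : Pos u ⊆ U :=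
  fun _ hx => h.sub ⟨subset_closure hx, h.ne_zero hx⟩

theorem frontier_sub (h : Cone0 u w U) {x : Ed d} (hx : x ∈ frontier (Pos u)) (hx0 : x ≠ 0) :
    x ∈ U := h.sub ⟨frontier_subset_closure hx, hx0⟩

theorem eq_zero_of_notMem (h : Cone0 u w U) {x : Ed d} (hx : x ∉ Pos u) : u x = 0 :=
  le_antisymm (not_lt.1 hx) (h.nonneg x)

theorem frontier_zero (h : Cone0 u w U) {x : Ed d} (hx : x ∈ frontier (Pos u)) :
    u x = 0 := by
  apply h.eq_zero_of_notMem
  rw [h.isOpen_pos.frontier_eq] at hx
  exact hx.2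

theorem mem_frontier_of_closure (h : Cone0 u w U) {x : Ed d} (hx : x ∈ closure (Pos u))
    (hx' : x ∉ Pos u) : x ∈ frontier (Pos u) := by
  rw [h.isOpen_pos.frontier_eq]
  exact ⟨hx, hx'⟩

theorem smoothAt (h : Cone0 u w U) {x : Ed d} (hx : x ∈ U) : ContDiffAt ℝ ∞ w x :=
  h.smooth.contDiffAt (h.isOpen.mem_nhds hx)

theorem smoothAt_of_closure (h : Cone0 u w U) {x : Ed d} (hx : x ∈ closure (Pos u))
    (hx0 : x ≠ 0) : ContDiffAt ℝ ∞ w x := h.smoothAt (h.sub ⟨hx, hx0⟩)

theorem eventually_eq (h : Cone0 u w U) {x : Ed d} (hx : x ∈ Pos u) : w =ᶠ[𝓝 x] u := by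
  filter_upwards [h.isOpen_pos.mem_nhds hx] with y hy
  exact h.eq y hy

theorem eq_closure (h : Cone0 u w U) {x : Ed d} (hx : x ∈ closure (Pos u)) (hx0 : x ≠ 0) :
    w x = u x := by
  have h1 : ContinuousAt w x := (h.smoothAt_of_closure hx hx0).continuousAt
  have : (𝓝[Pos u] x).NeBot := mem_closure_iff_nhdsWithin_neBot.1 hx
  have h2 : Tendsto w (𝓝[Pos u] x) (𝓝 (w x)) := h1.tendsto.mono_left nhdsWithin_le_nhds
  have h3 : Tendsto u (𝓝[Pos u] x) (𝓝 (u x)) :=
    h.cont.continuousAt.tendsto.mono_left nhdsWithin_le_nhds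
  have h4 : w =ᶠ[𝓝[Pos u] x] u := by
    filter_upwards [self_mem_nhdsWithin] with y hy
    exact h.eq y hy
  exact tendsto_nhds_unique (h2.congr' h4) h3

theorem contDiffOn_pdw (h : Cone0 u w U) (i : Fin d) : ContDiffOn ℝ ∞ (pd i w) U :=
  contDiffOn_pd h.isOpen h.smooth (by simp)

theorem contDiffOn_pdpdw (h : Cone0 u w U) (i j : Fin d) :
    ContDiffOn ℝ ∞ (pd i (pd j w)) U :=
  contDiffOn_pd h.isOpen (h.contDiffOn_pdw j) (by simp)

/-- invariance of the positivity set under dilations -/
theorem smul_mem (h : Cone0 u w U) {x : Ed d} (hx : x ∈ Pos u) {r : ℝ} (hr : 0 < r) :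
    r • x ∈ Pos u := by
  have h1 : 0 < u x := hx
  change 0 < u (r • x)
  rw [h.hom r hr]
  positivity

theorem kut_eventually_zero (h : Cone0 u w U) {ε : ℝ} (hε : 0 < ε) {x : Ed d}
    (hx : x ∉ Pos u) : kut u ε =ᶠ[𝓝 x] fun _ => 0 := by
  have h0 : u x < ε := by
    rw [h.eq_zero_of_notMem hx]
    exact hε
  filter_upwards [h.cont.continuousAt.eventually (gt_mem_nhds h0)] with y hy
  unfold kut
  exact chi_zero ((div_le_one hε).2 hy.le)

theorem kut_contDiff (h : Cone0 u w U) {ε : ℝ} (hε : 0 < ε) :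
    ContDiff ℝ ∞ (kut u ε) := by
  rw [contDiff_iff_contDiffAt]
  intro x
  by_cases hx : x ∈ Pos u
  · have h1 : kut u ε =ᶠ[𝓝 x] fun y => chi (w y / ε) := by
      filter_upwards [h.eventually_eq hx] with y hy
      unfold kut
      rw [hy]
    have h2 : ContDiffAt ℝ ∞ (fun y => w y / ε) x :=
      (h.smoothAt (h.pos_sub hx)).div_const ε
    exact (chi_contDiff.contDiffAt.comp x h2).congr_of_eventuallyEq h1
  · exact contDiffAt_const.congr_of_eventuallyEq (h.kut_eventually_zero hε hx)

theorem pd_kut (h : Cone0 u w U) {ε : ℝ} {x : Ed d} (hx : x ∈ Pos u)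
    (i : Fin d) : pd i (kut u ε) x = deriv chi (u x / ε) / ε * pd i w x := by
  have h1 : kut u ε =ᶠ[𝓝 x] fun y => chi (w y / ε) := by
    filter_upwards [h.eventually_eq hx] with y hy
    unfold kut
    rw [hy]
  have hw : DifferentiableAt ℝ w x := (h.smoothAt (h.pos_sub hx)).differentiableAt (by simp)
  have h2 : DifferentiableAt ℝ (fun y => w y / ε) x := by
    simpa [div_eq_mul_inv] using hw.mul_const ε⁻¹
  rw [pd_congr h1, pd_comp chi (chi_contDiff.differentiable (by simp) _) h2]
  have h3 : pd i (fun y => w y / ε) x = pd i w x / ε := by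
    have e : (fun y => w y / ε) = fun y => ε⁻¹ * w y := by
      funext y
      ring
    rw [e, pd_const_mul _ hw]
    ring
  rw [h3, h.eq x hx]
  ring

theorem kut_zero (h : Cone0 u w U) {ε : ℝ} (hε : 0 < ε) {x : Ed d} (hx : x ∉ Pos u) :
    kut u ε x = 0 := (h.kut_eventually_zero hε hx).self_of_nhds

theorem pd_kut_zero (h : Cone0 u w U) {ε : ℝ} (hε : 0 < ε) {x : Ed d} (hx : x ∉ Pos u)
    (i : Fin d) : pd i (kut u ε) x = 0 := by
  rw [pd_congr (h.kut_eventually_zero hε hx), pd_const]

/-- the divergence theorem with the cutoff -/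
theorem div_cut (h : Cone0 u w U) {ε : ℝ} (hε : 0 < ε) (G : Fin d → Ed d → ℝ)
    (hG : ∀ i, ContDiff ℝ 1 (G i)) (hs : ∀ i, HasCompactSupport (G i)) :
    ∫ x, kut u ε x * ∑ i, pd i (G i) x = - ∫ x, ∑ i, pd i (kut u ε) x * G i x := by
  have hk : ContDiff ℝ ∞ (kut u ε) := h.kut_contDiff hε
  have hk1 : ContDiff ℝ 1 (kut u ε) := hk.of_le (by simp)
  have hkG : ∀ i, ContDiff ℝ 1 (fun x => kut u ε x * G i x) := fun i => hk1.mul (hG i)
  have hkGs : ∀ i, HasCompactSupport (fun x => kut u ε x * G i x) := fun i =>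
    (hs i).mul_left
  have h1 : ∀ i, ∫ x, pd i (fun x => kut u ε x * G i x) x = 0 := fun i =>
    integral_pd (hkG i) (hkGs i)
  have hpG : ∀ i, Continuous (pd i (G i)) := fun i =>
    (contDiff_pd (m := 0) (hG i) le_rfl).continuous
  have hpk : ∀ i, Continuous (pd i (kut u ε)) := fun i =>
    (contDiff_pd (m := 0) hk1 le_rfl).continuous
  have i1 : ∀ i, Integrable (fun x => kut u ε x * pd i (G i) x) volume := fun i =>
    (hk.continuous.mul (hpG i)).integrable_of_hasCompactSupport
      ((hasCompactSupport_pd (hs i)).mul_left)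
  have i2 : ∀ i, Integrable (fun x => pd i (kut u ε) x * G i x) volume := fun i =>
    ((hpk i).mul (hG i).continuous).integrable_of_hasCompactSupport ((hs i).mul_left)
  have h2 : ∀ i, ∫ x, kut u ε x * pd i (G i) x = - ∫ x, pd i (kut u ε) x * G i x := by
    intro i
    have h3 := h1 i
    have h4 : ∀ x, pd i (fun x => kut u ε x * G i x) x =
        pd i (kut u ε) x * G i x + kut u ε x * pd i (G i) x := fun x =>
      pd_mul (hk1.differentiable (by simp) x) ((hG i).differentiable (by simp) x)
    simp only [h4] at h3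
    rw [integral_add (i2 i) (i1 i)] at h3
    linarith
  have h5 : (fun x => kut u ε x * ∑ i, pd i (G i) x) =
      fun x => ∑ i, kut u ε x * pd i (G i) x := by
    funext x
    rw [Finset.mul_sum]
  rw [h5, integral_finsetSum _ (fun i _ => i1 i), integral_finsetSum _ (fun i _ => i2 i),
    ← Finset.sum_neg_distrib]
  exact Finset.sum_congr rfl fun i _ => h2 i

/-- removing the cutoff -/
theorem kut_tendsto (h : Cone0 u w U) {f : Ed d → ℝ} (hf : Continuous f)
    (hs : HasCompactSupport f) :
    Tendsto (fun n : ℕ => ∫ x, kut u (1 / ((n : ℝ) + 1)) x * f x) atTop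
      (𝓝 (∫ x in Pos u, f x)) := by
  rw [← integral_indicator h.isOpen_pos.measurableSet]
  refine tendsto_integral_of_dominated_convergence (fun x => |f x|) ?_ ?_ ?_ ?_
  · intro n
    exact ((h.kut_contDiff (by positivity)).continuous.mul hf).aestronglyMeasurable
  · exact (hf.integrable_of_hasCompactSupport hs).abs
  · intro n
    filter_upwards with x
    unfold kut
    rw [norm_mul, Real.norm_eq_abs, Real.norm_eq_abs, abs_of_nonneg (chi_nonneg _)]
    exact mul_le_of_le_one_left (abs_nonneg _) (chi_le_one _)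
  · filter_upwards with x
    by_cases hx : x ∈ Pos u
    · rw [indicator_of_mem hx]
      have hu : 0 < u x := hx
      obtain ⟨N, hN⟩ := exists_nat_gt (2 / u x)
      refine tendsto_const_nhds.congr' ?_
      filter_upwards [eventually_ge_atTop N] with n hn
      have h1 : (2 : ℝ) ≤ u x / (1 / ((n : ℝ) + 1)) := by
        rw [div_div_eq_mul_div, div_one]
        have h2 : 2 / u x < (n : ℝ) + 1 := by
          have : (N : ℝ) ≤ n := by exact_mod_cast hn
          linarith
        rw [div_lt_iff₀ hu] at h2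
        linarith
      unfold kut
      rw [chi_one h1, one_mul]
    · rw [indicator_of_notMem hx]
      refine tendsto_const_nhds.congr' ?_
      filter_upwards with n
      rw [h.kut_zero (by positivity) hx, zero_mul]


/-- the gradient is bounded on the positivity set -/
theorem fderiv_bdd (h : Cone0 u w U) :
    ∃ C : ℝ, 0 ≤ C ∧ ∀ x ∈ Pos u, ‖fderiv ℝ w x‖ ≤ C := by
  set K : Set (Ed d) := closure (Pos u) ∩ Metric.sphere (0 : Ed d) 1 with hKdef
  have hK : IsCompact K := (isCompact_sphere 0 1).inter_left isClosed_closure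
  have hKU : K ⊆ U := by
    rintro x ⟨hx1, hx2⟩
    refine h.sub ⟨hx1, ?_⟩
    rintro rfl
    simp at hx2
  have hc : ContinuousOn (fderiv ℝ w) U := h.smooth.continuousOn_fderiv_of_isOpen h.isOpen
    (by simp)
  obtain ⟨C, hC⟩ := hK.exists_bound_of_continuousOn (hc.mono hKU)
  refine ⟨max C 0, le_max_right _ _, fun x hx => ?_⟩
  have hx0 := h.ne_zero hx
  have hnx : 0 < ‖x‖ := norm_pos_iff.2 hx0
  have hr : 0 < ‖x‖⁻¹ := inv_pos.2 hnx
  have hy : ‖x‖⁻¹ • x ∈ Pos u := h.smul_mem hx hr
  have hyK : ‖x‖⁻¹ • x ∈ K := by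
    refine ⟨subset_closure hy, ?_⟩
    rw [mem_sphere_zero_iff_norm, norm_smul, norm_inv, norm_norm, inv_mul_cancel₀ hnx.ne']
  have key : fderiv ℝ w x = fderiv ℝ w (‖x‖⁻¹ • x) := by
    rw [(h.eventually_eq hx).fderiv_eq, (h.eventually_eq hy).fderiv_eq]
    have e1 : (fun z => u (‖x‖⁻¹ • z)) = fun z => ‖x‖⁻¹ • u z := by
      funext z
      rw [h.hom _ hr, smul_eq_mul]
    have e2 := fderiv_comp_smul (𝕜 := ℝ) (f := u) (x := x) (‖x‖⁻¹)
    have hdu : DifferentiableAt ℝ u x :=
      ((h.eventually_eq hx).differentiableAt_iff).1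
        ((h.smoothAt (h.pos_sub hx)).differentiableAt (by simp))
    rw [e1, fderiv_fun_const_smul hdu] at e2
    exact smul_right_injective _ hr.ne' e2
  rw [key]
  exact (hC _ hyK).trans (le_max_left _ _)

/-- `u` is Lipschitz -/
theorem lipschitz (h : Cone0 u w U) : ∃ C : NNReal, LipschitzWith C u := by
  classical
  obtain ⟨C, hC0, hC⟩ := h.fderiv_bdd
  refine ⟨Real.toNNReal C, LipschitzWith.of_dist_le_mul fun x y => ?_⟩
  rw [Real.dist_eq, dist_eq_norm, Real.coe_toNNReal C hC0]
  -- the regularisations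
  have hreg : ∀ δ : ℝ, 0 < δ → ∀ z, HasFDerivAt (fun y => ramp δ (u y))
      (if z ∈ Pos u then chi (u z / δ) • fderiv ℝ w z else 0) z := by
    intro δ hδ z
    by_cases hz : z ∈ Pos u
    · rw [if_pos hz]
      have hw : HasFDerivAt w (fderiv ℝ w z) z :=
        ((h.smoothAt (h.pos_sub hz)).differentiableAt (by simp)).hasFDerivAt
      have hu : HasFDerivAt u (fderiv ℝ w z) z :=
        hw.congr_of_eventuallyEq (h.eventually_eq hz).symm
      have hr : HasDerivAt (ramp δ) (chi (u z / δ)) (u z) := by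
        have h1 := ((ramp_contDiff δ).differentiable (by simp) (u z)).hasDerivAt
        rwa [ramp_deriv hδ] at h1
      exact hr.comp_hasFDerivAt z hu
    · rw [if_neg hz]
      have h0 : u z < δ := by
        rw [h.eq_zero_of_notMem hz]
        exact hδ
      have h1 : (fun y => ramp δ (u y)) =ᶠ[𝓝 z] fun _ => 0 := by
        filter_upwards [h.cont.continuousAt.eventually (gt_mem_nhds h0)] with y hy
        exact ramp_zero hδ hy.le
      exact (hasFDerivAt_const (0 : ℝ) z).congr_of_eventuallyEq h1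
  have hbd : ∀ δ : ℝ, 0 < δ → |ramp δ (u x) - ramp δ (u y)| ≤ C * ‖x - y‖ := by
    intro δ hδ
    have h1 := convex_univ.norm_image_sub_le_of_norm_hasFDerivWithin_le (𝕜 := ℝ)
      (f := fun y => ramp δ (u y)) (C := C) (s := (univ : Set (Ed d)))
      (fun z _ => (hreg δ hδ z).hasFDerivWithinAt) ?_ (mem_univ y) (mem_univ x)
    · simpa [Real.norm_eq_abs] using h1
    · intro z _
      by_cases hz : z ∈ Pos u
      · rw [if_pos hz, norm_smul, Real.norm_eq_abs, abs_of_nonneg (chi_nonneg _)]
        exact (mul_le_of_le_one_left (norm_nonneg _) (chi_le_one _)).trans (hC z hz)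
      · rw [if_neg hz, norm_zero]
        exact hC0
  refine le_of_forall_pos_le_add fun ε hε => ?_
  have h1 := hbd (ε / 4) (by positivity)
  have h2 := ramp_ge (δ := ε / 4) (by positivity) (u x)
  have h3 := ramp_ge (δ := ε / 4) (by positivity) (u y)
  have h4 := ramp_le (δ := ε / 4) (by positivity) (h.nonneg x)
  have h5 := ramp_le (δ := ε / 4) (by positivity) (h.nonneg y)
  rw [abs_le] at h1 ⊢
  constructor <;> linarith [h1.1, h1.2]

/-- bounded continuous functions on the positivity set are integrable on bounded subsets -/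
theorem integrableOn_bdd (h : Cone0 u w U) {g : Ed d → ℝ} (hg : ContinuousOn g U)
    {A : Set (Ed d)} (hA : MeasurableSet A) (hAP : A ⊆ Pos u) (hAf : volume A < ⊤) {C : ℝ}
    (hC : ∀ x ∈ A, |g x| ≤ C) : IntegrableOn g A := by
  have h1 : IntegrableOn (fun _ : Ed d => C) A := integrableOn_const hAf.ne
  refine Integrable.mono' h1 ?_ ?_
  · exact (hg.mono (hAP.trans h.pos_sub)).aestronglyMeasurable hA
  · filter_upwards [ae_restrict_mem hA] with x hx
    rw [Real.norm_eq_abs]
    exact hC x hx

/-- functions continuous up to the boundary and supported in the support of a test function are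
integrable on the positivity set -/
theorem integrableOn_supp (h : Cone0 u w U) {φ : Ed d → ℝ} (hφs : HasCompactSupport φ)
    (h0 : (0 : Ed d) ∉ tsupport φ) {g : Ed d → ℝ} (hg : ContinuousOn g U)
    (hg0 : ∀ x ∈ Pos u, x ∉ tsupport φ → g x = 0) {A : Set (Ed d)} (hA : MeasurableSet A)
    (hAP : A ⊆ Pos u) : IntegrableOn g A := by
  set K : Set (Ed d) := closure (Pos u) ∩ tsupport φ with hK
  have hKc : IsCompact K := hφs.isCompact.inter_left isClosed_closure
  have hKU : K ⊆ U := fun x hx => h.sub ⟨hx.1, fun e => h0 (e ▸ hx.2)⟩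
  have h1 : IntegrableOn g K := (hg.mono hKU).integrableOn_compact hKc
  have h2 : Integrable (K.indicator g) := (integrable_indicator_iff hKc.measurableSet).2 h1
  refine (h2.integrableOn (s := A)).congr_fun (fun x hx => ?_) hA
  by_cases hxK : x ∈ K
  · rw [indicator_of_mem hxK]
  · rw [indicator_of_notMem hxK]
    refine (hg0 x (hAP hx) fun hs => hxK ⟨subset_closure (hAP hx), hs⟩).symm

end Cone0

end Vale.Agent.P098
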