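import Vale.Agent.Lib.P098.Sta.Fv0

/-!
# P098: minimality implies harmonicity in the positivity set
-/

open MeasureTheory Set Filter Topology
open scoped ContDiff ENNReal

namespace Vale.Agent.P098

variable {d : ℕ} {u w : Ed d → ℝ} {U : Set (Ed d)}

/-- a number is zero if its products with small numbers are at least of second order -/
theorem zero_of_quad {I C s₀ : ℝ} (hs₀ : 0 < s₀)
    (h : ∀ s : ℝ, |s| ≤ s₀ → 0 ≤ s * I + s ^ 2 * C) : I = 0 := by
  by_contra hI
  have hI0 : 0 < |I| := abs_pos.2 hI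
  set t : ℝ := min s₀ (|I| / (2 * (|C| + 1))) with ht
  have hC : 0 < |C| + 1 := by positivity
  have ht0 : 0 < t := lt_min hs₀ (by positivity)
  have ht1 : t ≤ s₀ := min_le_left _ _
  have ht2 : t * (|C| + 1) ≤ |I| / 2 := by
    have h1 : t ≤ |I| / (2 * (|C| + 1)) := min_le_right _ _
    have h2 := mul_le_mul_of_nonneg_right h1 hC.le
    have e : |I| / (2 * (|C| + 1)) * (|C| + 1) = |I| / 2 := by field_simp
    linarith
  have hCle : C ≤ |C| := le_abs_self C
  rcases lt_or_gt_of_ne hI with hI' | hI'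
  · have h1 := h t (by rw [abs_of_pos ht0]; exact ht1)
    rw [abs_of_neg hI'] at ht2 hI0
    nlinarith
  · have h1 := h (-t) (by rw [abs_neg, abs_of_pos ht0]; exact ht1)
    rw [abs_of_pos hI'] at ht2
    nlinarith

namespace Cone0

theorem contOn_gw (h : Cone0 u w U) : ContinuousOn (fun x => ∑ i, pd i w x ^ 2) U :=
  continuousOn_finsetSum _ fun i _ => (h.contDiffOn_pdw i).continuousOn.pow 2

theorem gw_bdd (h : Cone0 u w U) : ∃ C : ℝ, 0 ≤ C ∧ ∀ x ∈ Pos u, ∑ i, pd i w x ^ 2 ≤ C := by
  obtain ⟨C, hC0, hC⟩ := h.fderiv_bdd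
  refine ⟨C ^ 2, by positivity, fun x hx => ?_⟩
  rw [← norm_fderiv_sq]
  exact pow_le_pow_left₀ (norm_nonneg _) (hC x hx) 2

theorem int_gw (h : Cone0 u w U) {A : Set (Ed d)} (hA : MeasurableSet A) (hAP : A ⊆ Pos u)
    (hAf : volume A < ⊤) : IntegrableOn (fun x => ∑ i, pd i w x ^ 2) A := by
  obtain ⟨C, hC0, hC⟩ := h.gw_bdd
  refine h.integrableOn_bdd h.contOn_gw hA hAP hAf (C := C) fun x hx => ?_
  rw [abs_of_nonneg (Finset.sum_nonneg fun i _ => sq_nonneg _)]
  exact hC x (hAP hx)

theorem int_gw1 (h : Cone0 u w U) {A : Set (Ed d)} (hA : MeasurableSet A) (hAP : A ⊆ Pos u)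
    (hAf : volume A < ⊤) : IntegrableOn (fun x => (∑ i, pd i w x ^ 2) + 1) A :=
  (h.int_gw hA hAP hAf).add (integrableOn_const hAf.ne)

theorem fin_ball (A : Set (Ed d)) (R : ℝ) : volume (A ∩ Metric.ball 0 R) < ⊤ :=
  lt_of_le_of_lt (measure_mono inter_subset_right) measure_ball_lt_top

theorem energy_self (h : Cone0 u w U) (R : ℝ) : energy u (Metric.ball 0 R) =
    ENNReal.ofReal (∫ x in Pos u ∩ Metric.ball 0 R, ((∑ i, pd i w x ^ 2) + 1)) := by
  refine energy_eq h.nonneg h.isOpen_pos.measurableSet ?_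
    (h.int_gw1 (h.isOpen_pos.measurableSet.inter Metric.isOpen_ball.measurableSet)
      inter_subset_left (fin_ball _ _))
  intro x hx
  rw [← (h.eventually_eq hx).fderiv_eq, norm_fderiv_sq]

/-- the weak equation -/
theorem weak_harm (h : Cone0 u w U) (hm : LipMin u) {φ : Ed d → ℝ} (hφ : ContDiff ℝ ∞ φ)
    (hφs : HasCompactSupport φ) (hsub : tsupport φ ⊆ Pos u) :
    ∫ x in Pos u, ∑ i, pd i w x * pd i φ x = 0 := by
  have hφc : Continuous φ := hφ.continuous
  have hpφ : ∀ i, Continuous (pd i φ) := fun i =>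
    (contDiff_pd (n := ∞) (m := ∞) hφ (by simp)).continuous
  have hPo : MeasurableSet (Pos u) := h.isOpen_pos.measurableSet
  have h0 : (0 : Ed d) ∉ tsupport φ := fun h1 => h.ne_zero (hsub h1) rfl
  obtain ⟨R, hR⟩ := hφs.isCompact.isBounded.subset_ball (0 : Ed d)
  set B : Set (Ed d) := Metric.ball 0 R with hB
  have hBm : MeasurableSet B := Metric.isOpen_ball.measurableSet
  have hPB : MeasurableSet (Pos u ∩ B) := hPo.inter hBm
  -- lower bound of `u` on the support
  obtain ⟨m, hm0, hmK⟩ : ∃ m : ℝ, 0 < m ∧ ∀ x ∈ tsupport φ, m ≤ u x := by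
    rcases (tsupport φ).eq_empty_or_nonempty with he | hne
    · exact ⟨1, one_pos, fun x hx => absurd hx (by rw [he]; exact notMem_empty x)⟩
    · obtain ⟨x0, hx0, hmin⟩ := hφs.isCompact.exists_isMinOn hne h.cont.continuousOn
      exact ⟨u x0, hsub hx0, fun x hx => hmin hx⟩
  obtain ⟨M, hM⟩ := hφs.exists_bound_of_continuous hφc
  have hM0 : 0 ≤ M := (norm_nonneg _).trans (hM 0)
  set s₀ : ℝ := m / (2 * (M + 1)) with hs₀
  have hs₀0 : 0 < s₀ := by positivity
  set I : ℝ := ∫ x in Pos u, ∑ i, pd i w x * pd i φ x with hI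
  set J : ℝ := ∫ x in Pos u, ∑ i, pd i φ x ^ 2 with hJ
  have cI : ContinuousOn (fun x => ∑ i, pd i w x * pd i φ x) U :=
    continuousOn_finsetSum _ fun i _ => (h.contDiffOn_pdw i).continuousOn.mul
      (hpφ i).continuousOn
  have zI : ∀ x, x ∉ tsupport φ → ∑ i, pd i w x * pd i φ x = 0 := by
    intro x hx
    have h1 : ∀ i, pd i φ x = 0 := fun i => pd_eq_zero_of_notMem_tsupport hx
    simp [h1]
  have iI : ∀ A : Set (Ed d), MeasurableSet A → A ⊆ Pos u →
      IntegrableOn (fun x => ∑ i, pd i w x * pd i φ x) A := fun A hA hAP =>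
    h.integrableOn_supp hφs h0 cI (fun x _ hx => zI x hx) hA hAP
  have cJ : ContinuousOn (fun x => ∑ i, pd i φ x ^ 2) U :=
    continuousOn_finsetSum _ fun i _ => (hpφ i).continuousOn.pow 2
  have zJ : ∀ x, x ∉ tsupport φ → ∑ i, pd i φ x ^ 2 = 0 := by
    intro x hx
    have h1 : ∀ i, pd i φ x = 0 := fun i => pd_eq_zero_of_notMem_tsupport hx
    simp [h1]
  have iJ : ∀ A : Set (Ed d), MeasurableSet A → A ⊆ Pos u →
      IntegrableOn (fun x => ∑ i, pd i φ x ^ 2) A := fun A hA hAP =>
    h.integrableOn_supp hφs h0 cJ (fun x _ hx => zJ x hx) hA hAP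
  refine zero_of_quad (I := I) (C := J / 2) hs₀0 ?_
  intro s hs
  -- the competitor
  set v : Ed d → ℝ := fun x => u x + s * φ x with hv
  have hsM : ∀ x, |s * φ x| ≤ m / 2 := by
    intro x
    rw [abs_mul]
    have h1 := hM x
    rw [Real.norm_eq_abs] at h1
    calc |s| * |φ x| ≤ s₀ * M := mul_le_mul hs h1 (abs_nonneg _) hs₀0.le
      _ ≤ s₀ * (M + 1) := mul_le_mul_of_nonneg_left (by linarith) hs₀0.le
      _ = m / 2 := by
        rw [hs₀]
        field_simp
  have hvK : ∀ x ∈ tsupport φ, m / 2 ≤ v x := by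
    intro x hx
    have h1 := (abs_le.1 (hsM x)).1
    have h2 := hmK x hx
    simp only [hv]
    linarith
  have hvo : ∀ x, x ∉ tsupport φ → v x = u x := by
    intro x hx
    simp only [hv]
    rw [image_eq_zero_of_notMem_tsupport hx]
    ring
  have hv0 : ∀ x, 0 ≤ v x := by
    intro x
    by_cases hx : x ∈ tsupport φ
    · have := hvK x hx
      linarith
    · rw [hvo x hx]
      exact h.nonneg x
  have hvP : Pos v = Pos u := by
    ext x
    by_cases hx : x ∈ tsupport φ
    · have h1 := hvK x hx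
      exact ⟨fun _ => hsub hx, fun _ => by change 0 < v x; linarith⟩
    · change 0 < v x ↔ 0 < u x
      rw [hvo x hx]
  have hvL : LocallyLipschitz v := by
    obtain ⟨C', hC'⟩ := h.lipschitz
    have h1 : LocallyLipschitz (fun x => s * φ x) :=
      ((contDiff_const.mul hφ : ContDiff ℝ ∞ fun x => s * φ x).of_le
        (by simp)).locallyLipschitz
    exact hC'.locallyLipschitz.add h1
  have hvs : tsupport (fun x => v x - u x) ⊆ B := by
    refine subset_trans (closure_mono ?_) hR
    intro x hx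
    rw [Function.mem_support] at hx ⊢
    intro h1
    apply hx
    simp only [hv, h1, mul_zero, add_zero, sub_self]
  have hmin := hm R v hvL hv0 hvs
  have hgv : ∀ x ∈ Pos v, ‖fderiv ℝ v x‖ ^ 2 = ∑ i, (pd i w x + s * pd i φ x) ^ 2 := by
    intro x hx
    have hx2 : x ∈ Pos u := hvP ▸ hx
    have h1 : v =ᶠ[𝓝 x] fun y => w y + s * φ y := by
      filter_upwards [h.eventually_eq hx2] with y hy2
      simp only [hv]
      rw [hy2]
    rw [norm_fderiv_sq]
    refine Finset.sum_congr rfl fun i _ => ?_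
    have hw : DifferentiableAt ℝ w x := (h.smoothAt (h.pos_sub hx2)).differentiableAt (by simp)
    have hp : DifferentiableAt ℝ φ x := (hφ.differentiable (by simp)) x
    rw [pd_congr h1, pd_add hw (hp.const_mul s), pd_const_mul s hp]
  have hsplit : ∀ x, (∑ i, (pd i w x + s * pd i φ x) ^ 2) + 1 = ((∑ i, pd i w x ^ 2) + 1) +
      (2 * s * (∑ i, pd i w x * pd i φ x) + s ^ 2 * ∑ i, pd i φ x ^ 2) := by
    intro x
    have h1 : ∀ i, (pd i w x + s * pd i φ x) ^ 2 = pd i w x ^ 2 +
        (2 * s * (pd i w x * pd i φ x) + s ^ 2 * pd i φ x ^ 2) := fun i => by ring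
    simp only [h1, Finset.sum_add_distrib, Finset.mul_sum]
    ring
  have i1 := h.int_gw1 hPB inter_subset_left (fin_ball (Pos u) R)
  have i2 : IntegrableOn (fun x => 2 * s * (∑ i, pd i w x * pd i φ x) +
      s ^ 2 * ∑ i, pd i φ x ^ 2) (Pos u ∩ B) :=
    ((iI _ hPB inter_subset_left).const_mul _).add ((iJ _ hPB inter_subset_left).const_mul _)
  have i3 : IntegrableOn (fun x => (∑ i, (pd i w x + s * pd i φ x) ^ 2) + 1) (Pos u ∩ B) := by
    have h1 := i1.add i2
    refine h1.congr_fun (fun x _ => ?_) hPB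
    exact (hsplit x).symm
  have ev := energy_eq (B := B) (g := fun x => ∑ i, (pd i w x + s * pd i φ x) ^ 2) hv0
    (by rw [hvP]; exact hPo) hgv (by rw [hvP]; exact i3)
  rw [h.energy_self R, ev, hvP, ENNReal.ofReal_le_ofReal_iff (by
    refine integral_nonneg fun x => ?_
    positivity)] at hmin
  simp only [hsplit] at hmin
  rw [integral_add i1 i2, integral_add ((iI _ hPB inter_subset_left).const_mul _)
    ((iJ _ hPB inter_subset_left).const_mul _), integral_const_mul, integral_const_mul] at hmin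
  have e1 : ∫ x in Pos u ∩ B, ∑ i, pd i w x * pd i φ x = I := by
    refine (setIntegral_eq_of_subset_of_forall_sdiff_eq_zero hPo inter_subset_left ?_).symm
    rintro x ⟨hx1, hx2⟩
    exact zI x fun hs => hx2 ⟨hx1, hR hs⟩
  have e2 : ∫ x in Pos u ∩ B, ∑ i, pd i φ x ^ 2 = J := by
    refine (setIntegral_eq_of_subset_of_forall_sdiff_eq_zero hPo inter_subset_left ?_).symm
    rintro x ⟨hx1, hx2⟩
    exact zJ x fun hs => hx2 ⟨hx1, hR hs⟩
  rw [e1, e2] at hmin
  linarith

/-- **Minimality implies harmonicity.** -/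
theorem harm_of_min (h : Cone0 u w U) (hm : LipMin u) : ∀ x ∈ Pos u, lap w x = 0 := by
  have hPo : MeasurableSet (Pos u) := h.isOpen_pos.measurableSet
  have hc : ContinuousOn (lap w) (Pos u) := by
    have h1 : ContinuousOn (lap w) U := continuousOn_finsetSum _ fun i _ =>
      (h.contDiffOn_pdpdw i i).continuousOn
    exact h1.mono h.pos_sub
  have key : ∀ g : Ed d → ℝ, ContDiff ℝ ∞ g → HasCompactSupport g → tsupport g ⊆ Pos u →
      ∫ x, g x • lap w x = 0 := by
    intro g hg hgs hsub
    have hw := h.weak_harm hm hg hgs hsub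
    have hwsm : ∀ i, ContDiffOn ℝ ∞ (pd i w) (Pos u) := fun i =>
      (h.contDiffOn_pdw i).mono h.pos_sub
    have hc1 : ∀ i, ContDiff ℝ 1 (fun x => g x * pd i w x) := fun i =>
      (contDiff_cutoff_mul h.isOpen_pos hg hsub (hwsm i)).of_le (by simp)
    have hs1 : ∀ i, HasCompactSupport (fun x => g x * pd i w x) := fun i => hgs.mul_right
    have h1 : ∀ i, ∫ x, pd i (fun x => g x * pd i w x) x = 0 := fun i =>
      integral_pd (hc1 i) (hs1 i)
    have hint : ∀ i, Integrable (pd i (fun x => g x * pd i w x)) volume := fun i =>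
      (contDiff_pd (m := 0) (hc1 i) le_rfl).continuous.integrable_of_hasCompactSupport
        (hasCompactSupport_pd (hs1 i))
    have h2 : ∫ x, ∑ i, pd i (fun x => g x * pd i w x) x = 0 := by
      rw [integral_finsetSum _ fun i _ => hint i]
      exact Finset.sum_eq_zero fun i _ => h1 i
    have h3 : ∀ x, ∑ i, pd i (fun x => g x * pd i w x) x =
        (Pos u).indicator (fun x => ∑ i, pd i w x * pd i g x) x + g x • lap w x := by
      intro x
      by_cases hx : x ∈ Pos u
      · rw [indicator_of_mem hx, smul_eq_mul]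
        unfold lap
        rw [Finset.mul_sum, ← Finset.sum_add_distrib]
        refine Finset.sum_congr rfl fun i _ => ?_
        have hd : DifferentiableAt ℝ (pd i w) x :=
          ((hwsm i).contDiffAt (h.isOpen_pos.mem_nhds hx)).differentiableAt (by simp)
        rw [pd_mul ((hg.differentiable (by simp)) x) hd]
        ring
      · have hx' : x ∉ tsupport g := fun h' => hx (hsub h')
        rw [indicator_of_notMem hx, image_eq_zero_of_notMem_tsupport hx', zero_smul, add_zero]
        refine Finset.sum_eq_zero fun i _ => ?_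
        apply pd_eq_zero_of_notMem_tsupport
        intro h'
        exact hx' (tsupport_mul_subset_left h')
    have i1 : Integrable ((Pos u).indicator (fun x => ∑ i, pd i w x * pd i g x)) volume := by
      rw [integrable_indicator_iff hPo]
      refine h.integrableOn_supp hgs (fun h1 => h.ne_zero (hsub h1) rfl) ?_ ?_ hPo subset_rfl
      · exact continuousOn_finsetSum _ fun i _ => (h.contDiffOn_pdw i).continuousOn.mul
          (contDiff_pd (n := ∞) (m := ∞) hg (by simp)).continuous.continuousOn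
      · intro x _ hx
        have h1 : ∀ i, pd i g x = 0 := fun i => pd_eq_zero_of_notMem_tsupport hx
        simp [h1]
    have i2 : Integrable (fun x => ∑ i, pd i (fun x => g x * pd i w x) x) volume :=
      integrable_finsetSum _ fun i _ => hint i
    have i3 : Integrable (fun x => g x • lap w x) volume := by
      have h4 := i2.sub i1
      refine h4.congr (Filter.Eventually.of_forall fun x => ?_)
      simp only [Pi.sub_apply]
      rw [h3 x]
      ring
    simp only [h3] at h2
    rw [integral_add i1 i3, integral_indicator hPo, hw, zero_add] at h2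
    exact h2
  have hae := h.isOpen_pos.ae_eq_zero_of_integral_contDiff_smul_eq_zero (μ := volume)
    (hc.locallyIntegrableOn hPo) key
  have hae2 : lap w =ᵐ[volume.restrict (Pos u)] fun _ => 0 := by
    rw [EventuallyEq, ae_restrict_iff' hPo]
    exact hae
  have := Measure.eqOn_open_of_ae_eq hae2 h.isOpen_pos hc continuousOn_const
  exact fun x hx => this hx

end Cone0

end Vale.Agent.P098
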