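import Vale.Agent.Lib.P098.Sta.Fv1

/-!
# P098: the inner variation
-/

open MeasureTheory Set Filter Topology
open scoped ContDiff ENNReal NNReal

namespace Vale.Agent.P098

variable {d : ℕ} {u w η : Ed d → ℝ} {U : Set (Ed d)} {s : ℝ} {e y : Ed d}

/-- the deformation `y ↦ y + s η(y) e` -/
noncomputable def Psi (s : ℝ) (η : Ed d → ℝ) (e : Ed d) (y : Ed d) : Ed d := y + (s * η y) • e

/-- its derivative -/
noncomputable def dPsi (s : ℝ) (η : Ed d → ℝ) (e : Ed d) (y : Ed d) : Ed d →L[ℝ] Ed d :=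
  ContinuousLinearMap.id ℝ (Ed d) + (s • fderiv ℝ η y).smulRight e

theorem dPsi_apply (b : Ed d) : dPsi s η e y b = b + (s * fderiv ℝ η y b) • e := by
  simp [dPsi]

theorem Psi_hasFDerivAt (hη : DifferentiableAt ℝ η y) :
    HasFDerivAt (Psi s η e) (dPsi s η e y) y := by
  have h1 : HasFDerivAt (fun y => s * η y) (s • fderiv ℝ η y) y := hη.hasFDerivAt.const_mul s
  exact (hasFDerivAt_id y).add (h1.smul_const e)

theorem dPsi_det : (dPsi s η e y).det = 1 + s * fderiv ℝ η y e := by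
  have h1 : ((dPsi s η e y : Ed d →L[ℝ] Ed d) : Ed d →ₗ[ℝ] Ed d) =
      LinearMap.transvection (s • (fderiv ℝ η y : Ed d →ₗ[ℝ] ℝ)) e := by
    refine LinearMap.ext fun b => ?_
    rw [LinearMap.transvection.apply]
    change dPsi s η e y b = _
    rw [dPsi_apply]
    simp
  rw [ContinuousLinearMap.det, h1, LinearMap.transvection.det]
  simp

theorem Psi_dist {K : ℝ≥0} (hK : LipschitzWith K η) (hs : |s| * (K * ‖e‖) ≤ 1 / 2)
    (x y : Ed d) : ‖Psi s η e x - Psi s η e y - (x - y)‖ ≤ 1 / 2 * ‖x - y‖ := by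
  have e1 : Psi s η e x - Psi s η e y - (x - y) = (s * (η x - η y)) • e := by
    unfold Psi
    rw [mul_sub, sub_smul]
    abel
  rw [e1, norm_smul, Real.norm_eq_abs, abs_mul]
  have h1 := hK.dist_le_mul x y
  rw [Real.dist_eq, dist_eq_norm] at h1
  calc |s| * |η x - η y| * ‖e‖ ≤ |s| * (K * ‖x - y‖) * ‖e‖ := by
        gcongr
    _ = |s| * (K * ‖e‖) * ‖x - y‖ := by ring
    _ ≤ 1 / 2 * ‖x - y‖ := mul_le_mul_of_nonneg_right hs (norm_nonneg _)

theorem exists_homeo {K : ℝ≥0} (hK : LipschitzWith K η) (hs : |s| * (K * ‖e‖) ≤ 1 / 2) :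
    ∃ Θ : Ed d ≃ₜ Ed d, ∀ y, Θ y = Psi s η e y := by
  have hA : ApproximatesLinearOn (Psi s η e)
      ((ContinuousLinearEquiv.refl ℝ (Ed d) : Ed d ≃L[ℝ] Ed d) : Ed d →L[ℝ] Ed d) univ
      (1 / 2) := by
    intro x _ y _
    have h1 := Psi_dist (e := e) hK hs x y
    simpa using h1
  have hc : Subsingleton (Ed d) ∨ (1 / 2 : ℝ≥0) <
      ‖((ContinuousLinearEquiv.refl ℝ (Ed d)).symm : Ed d →L[ℝ] Ed d)‖₊⁻¹ := by
    rcases subsingleton_or_nontrivial (Ed d) with h | h
    · exact Or.inl h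
    · right
      have h1 : ‖((ContinuousLinearEquiv.refl ℝ (Ed d)).symm : Ed d →L[ℝ] Ed d)‖₊ = 1 := by
        apply NNReal.eq
        rw [coe_nnnorm, NNReal.coe_one]
        exact ContinuousLinearMap.norm_id
      rw [h1, inv_one]
      exact NNReal.half_lt_self one_ne_zero
  exact ⟨hA.toHomeomorph _ hc, fun y => rfl⟩

theorem Psi_inv_lipschitz {K : ℝ≥0} (hK : LipschitzWith K η) (hs : |s| * (K * ‖e‖) ≤ 1 / 2)
    {Θ : Ed d ≃ₜ Ed d} (hΘ : ∀ y, Θ y = Psi s η e y) : LipschitzWith 2 Θ.symm := by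
  refine LipschitzWith.of_dist_le_mul fun x x' => ?_
  rw [dist_eq_norm, dist_eq_norm]
  have h1 := Psi_dist (e := e) hK hs (Θ.symm x) (Θ.symm x')
  rw [← hΘ, ← hΘ, Θ.apply_symm_apply, Θ.apply_symm_apply] at h1
  have h2 : ‖Θ.symm x - Θ.symm x'‖ ≤ ‖x - x'‖ +
      ‖x - x' - (Θ.symm x - Θ.symm x')‖ := by
    have h3 := norm_sub_le (x - x') (x - x' - (Θ.symm x - Θ.symm x'))
    have e1 : x - x' - (x - x' - (Θ.symm x - Θ.symm x')) = Θ.symm x - Θ.symm x' := by abel
    rwa [e1] at h3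
  push_cast
  linarith

/-- derivative of the deformed function -/
theorem fderiv_deformed {v : Ed d → ℝ} (hη : DifferentiableAt ℝ η y)
    {Θ : Ed d ≃ₜ Ed d} (hΘ : ∀ y, Θ y = Psi s η e y) (hv : ∀ x, v x = u (Θ.symm x))
    (hu : HasFDerivAt u (fderiv ℝ w y) y) (hdet : 1 + s * fderiv ℝ η y e ≠ 0) (b : Ed d) :
    fderiv ℝ v (Psi s η e y) b = fderiv ℝ w y b -
      s * (fderiv ℝ w y e / (1 + s * fderiv ℝ η y e)) * fderiv ℝ η y b := by
  have hsy : Θ.symm (Psi s η e y) = y := by rw [← hΘ, Θ.symm_apply_apply]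
  have hne : (dPsi s η e y).det ≠ 0 := by rwa [dPsi_det]
  set A := (dPsi s η e y).toContinuousLinearEquivOfDetNeZero hne with hA
  have hAc : (A : Ed d →L[ℝ] Ed d) = dPsi s η e y :=
    ContinuousLinearMap.coe_toContinuousLinearEquivOfDetNeZero _ hne
  have hΘ' : (Θ : Ed d → Ed d) = Psi s η e := funext hΘ
  have h1 : HasFDerivAt (Θ : Ed d → Ed d) (A : Ed d →L[ℝ] Ed d)
      (Θ.symm (Psi s η e y)) := by
    rw [hAc, hsy, hΘ']
    exact Psi_hasFDerivAt hη
  have h2 : HasFDerivAt (Θ.symm : Ed d → Ed d) (A.symm : Ed d →L[ℝ] Ed d) (Psi s η e y) :=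
    h1.of_local_left_inverse Θ.symm.continuous.continuousAt
      (Filter.Eventually.of_forall fun x => Θ.apply_symm_apply x)
  have hv' : v = u ∘ (Θ.symm : Ed d → Ed d) := funext hv
  have h3 : HasFDerivAt v ((fderiv ℝ w y).comp (A.symm : Ed d →L[ℝ] Ed d)) (Psi s η e y) := by
    rw [hv']
    refine HasFDerivAt.comp _ ?_ h2
    rw [hsy]
    exact hu
  rw [h3.fderiv]
  set ℓ : Ed d →L[ℝ] ℝ := (fderiv ℝ w y).comp (A.symm : Ed d →L[ℝ] Ed d) with hℓ
  have h4 : ∀ c, ℓ c + (s * fderiv ℝ η y c) * ℓ e = fderiv ℝ w y c := by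
    intro c
    have h5 : A c = c + (s * fderiv ℝ η y c) • e := by
      rw [← dPsi_apply]
      exact congrArg (fun L : Ed d →L[ℝ] Ed d => L c) hAc
    have h6 : ℓ (A c) = fderiv ℝ w y c := by
      simp [hℓ]
    rw [h5, map_add, map_smul, smul_eq_mul] at h6
    exact h6
  have h5 := h4 e
  have h6 : ℓ e = fderiv ℝ w y e / (1 + s * fderiv ℝ η y e) := by
    rw [eq_div_iff hdet]
    linarith
  have h7 := h4 b
  rw [h6] at h7
  linarith

namespace Cone0

/-- **The inner variation**: stationarity with respect to the deformations `y + s η(y) e` -/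
theorem inner_var (h : Cone0 u w U) (hm : LipMin u) (hη : ContDiff ℝ ∞ η)
    (hηs : HasCompactSupport η) (h0 : (0 : Ed d) ∉ tsupport η) (e : Ed d) :
    ∫ x in Pos u, (((∑ i, pd i w x ^ 2) + 1) * fderiv ℝ η x e -
      2 * fderiv ℝ w x e * ∑ i, pd i w x * pd i η x) = 0 := by
  have hηc : Continuous η := hη.continuous
  have hpη : ∀ i, Continuous (pd i η) := fun i =>
    (contDiff_pd (n := ∞) (m := ∞) hη (by simp)).continuous
  have hPo : MeasurableSet (Pos u) := h.isOpen_pos.measurableSet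
  have hDc : Continuous (fun x => fderiv ℝ η x e) :=
    (hη.continuous_fderiv (by simp)).clm_apply continuous_const
  have hDs : HasCompactSupport (fun x => fderiv ℝ η x e) := hηs.fderiv_apply (𝕜 := ℝ) e
  have hDz : ∀ x, x ∉ tsupport η → ∀ b, fderiv ℝ η x b = 0 := by
    intro x hx b
    have h1 : η =ᶠ[𝓝 x] fun _ => 0 := notMem_tsupport_iff_eventuallyEq.1 hx
    rw [h1.fderiv_eq]
    simp
  have hpz : ∀ x, x ∉ tsupport η → ∀ i, pd i η x = 0 := fun x hx i =>
    pd_eq_zero_of_notMem_tsupport hx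
  have hWc : ContinuousOn (fun x => fderiv ℝ w x e) U :=
    (h.smooth.continuousOn_fderiv_of_isOpen h.isOpen (by simp)).clm_apply continuousOn_const
  obtain ⟨K, hK⟩ := (hη.of_le (by simp) : ContDiff ℝ 1 η).lipschitzWith_of_hasCompactSupport hηs
    (by simp)
  obtain ⟨M, hM⟩ := hηs.exists_bound_of_continuous hηc
  obtain ⟨CD, hCD⟩ := hDs.exists_bound_of_continuous hDc
  have hM0 : 0 ≤ M := (norm_nonneg _).trans (hM 0)
  have hCD0 : 0 ≤ CD := (norm_nonneg _).trans (hCD 0)
  obtain ⟨R', hR'⟩ := hηs.isCompact.isBounded.subset_ball (0 : Ed d)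
  set R : ℝ := R' + 1 with hR
  set B : Set (Ed d) := Metric.ball 0 R with hB
  have hBm : MeasurableSet B := Metric.isOpen_ball.measurableSet
  have hPB : MeasurableSet (Pos u ∩ B) := hPo.inter hBm
  have hsB : tsupport η ⊆ B := hR'.trans (Metric.ball_subset_ball (by linarith))
  set D : Ed d → ℝ := fun x => fderiv ℝ η x e with hD
  set W1 : Ed d → ℝ := fun x => fderiv ℝ w x e with hW1
  set T : Ed d → ℝ := fun x => ∑ i, pd i w x * pd i η x with hT
  set N : Ed d → ℝ := fun x => ∑ i, pd i η x ^ 2 with hN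
  set g : Ed d → ℝ := fun x => ∑ i, pd i w x ^ 2 with hg
  have hTc : ContinuousOn T U := continuousOn_finsetSum _ fun i _ =>
    (h.contDiffOn_pdw i).continuousOn.mul (hpη i).continuousOn
  have hNc : Continuous N := continuous_finsetSum _ fun i _ => (hpη i).pow 2
  have hN0 : ∀ x, 0 ≤ N x := fun x => Finset.sum_nonneg fun i _ => sq_nonneg _
  have hTz : ∀ x, x ∉ tsupport η → T x = 0 := by
    intro x hx
    simp only [hT, hpz x hx, mul_zero, Finset.sum_const_zero]
  have hNz : ∀ x, x ∉ tsupport η → N x = 0 := by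
    intro x hx
    simp only [hN, hpz x hx]
    simp
  -- integrability
  have iA : ∀ A : Set (Ed d), MeasurableSet A → A ⊆ Pos u →
      IntegrableOn (fun x => (g x + 1) * D x - 2 * W1 x * T x) A := by
    intro A hA hAP
    refine h.integrableOn_supp hηs h0 ?_ ?_ hA hAP
    · exact ((h.contOn_gw.add continuousOn_const).mul hDc.continuousOn).sub
        ((continuousOn_const.mul hWc).mul hTc)
    · intro x _ hx
      have h1 : D x = 0 := hDz x hx e
      rw [h1, hTz x hx]
      ring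
  have iC : ∀ A : Set (Ed d), MeasurableSet A → A ⊆ Pos u →
      IntegrableOn (fun x => W1 x ^ 2 * N x) A := by
    intro A hA hAP
    refine h.integrableOn_supp hηs h0 ((hWc.pow 2).mul hNc.continuousOn) ?_ hA hAP
    intro x _ hx
    change W1 x ^ 2 * N x = 0
    rw [hNz x hx, mul_zero]
  set I : ℝ := ∫ x in Pos u, ((g x + 1) * D x - 2 * W1 x * T x) with hI
  set C : ℝ := 2 * ∫ x in Pos u, W1 x ^ 2 * N x with hC
  set s₀ : ℝ := 1 / (2 * (K * ‖e‖ + CD + M * ‖e‖ + 1)) with hs₀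
  have hden : 0 < K * ‖e‖ + CD + M * ‖e‖ + 1 := by positivity
  have hs₀0 : 0 < s₀ := by positivity
  refine zero_of_quad (I := I) (C := C) hs₀0 ?_
  intro s hs
  have hs1 : |s| * (K * ‖e‖ + CD + M * ‖e‖ + 1) ≤ 1 / 2 := by
    have h1 := mul_le_mul_of_nonneg_right hs hden.le
    have e1 : s₀ * (K * ‖e‖ + CD + M * ‖e‖ + 1) = 1 / 2 := by
      rw [hs₀]
      field_simp
    linarith
  have hsn : 0 ≤ |s| := abs_nonneg s
  have hsK : |s| * (K * ‖e‖) ≤ 1 / 2 := by
    have h1 : |s| * (K * ‖e‖) ≤ |s| * (K * ‖e‖ + CD + M * ‖e‖ + 1) :=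
      mul_le_mul_of_nonneg_left (by
        have : 0 ≤ M * ‖e‖ := by positivity
        linarith) hsn
    linarith
  have hsD : ∀ x, |s * D x| ≤ 1 / 2 := by
    intro x
    rw [abs_mul]
    have h1 := hCD x
    rw [Real.norm_eq_abs] at h1
    have h2 : |s| * |D x| ≤ |s| * (K * ‖e‖ + CD + M * ‖e‖ + 1) :=
      mul_le_mul_of_nonneg_left (by
        have h3 : 0 ≤ M * ‖e‖ := by positivity
        have h4 : 0 ≤ K * ‖e‖ := by positivity
        linarith) hsn
    linarith
  have hdetp : ∀ x, 1 / 2 ≤ 1 + s * D x := by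
    intro x
    have := (abs_le.1 (hsD x)).1
    linarith
  obtain ⟨Θ, hΘ⟩ := exists_homeo (e := e) hK hsK
  have hΘ' : (Θ : Ed d → Ed d) = Psi s η e := funext hΘ
  set v : Ed d → ℝ := fun x => u (Θ.symm x) with hv
  have hv0 : ∀ x, 0 ≤ v x := fun x => h.nonneg _
  have hvc : Continuous v := h.cont.comp Θ.symm.continuous
  have hvPm : MeasurableSet (Pos v) := (isOpen_lt continuous_const hvc).measurableSet
  -- points of the ball
  have hfix : ∀ y, y ∉ tsupport η → Psi s η e y = y := by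
    intro y hy
    unfold Psi
    rw [image_eq_zero_of_notMem_tsupport hy]
    simp
  have hinB : ∀ y ∈ tsupport η, Psi s η e y ∈ B := by
    intro y hy
    have h1 := hR' hy
    rw [mem_ball_zero_iff] at h1 ⊢
    have h2 : ‖(s * η y) • e‖ ≤ 1 / 2 := by
      rw [norm_smul, Real.norm_eq_abs, abs_mul]
      have h3 := hM y
      rw [Real.norm_eq_abs] at h3
      have h4 : |s| * |η y| * ‖e‖ ≤ |s| * (K * ‖e‖ + CD + M * ‖e‖ + 1) := by
        rw [mul_assoc]
        refine mul_le_mul_of_nonneg_left ?_ hsn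
        have h5 : |η y| * ‖e‖ ≤ M * ‖e‖ := mul_le_mul_of_nonneg_right h3 (norm_nonneg _)
        have h6 : 0 ≤ K * ‖e‖ := by positivity
        linarith
      linarith
    unfold Psi
    have h3 := norm_add_le y ((s * η y) • e)
    linarith
  have hballiff : ∀ y, Psi s η e y ∈ B ↔ y ∈ B := by
    intro y
    by_cases hy : y ∈ tsupport η
    · exact ⟨fun _ => hsB hy, fun _ => hinB y hy⟩
    · rw [hfix y hy]
  have himg : Pos v ∩ B = Psi s η e '' (Pos u ∩ B) := by
    ext x
    constructor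
    · rintro ⟨hx1, hx2⟩
      refine ⟨Θ.symm x, ⟨hx1, ?_⟩, ?_⟩
      · rw [← hballiff, ← hΘ, Θ.apply_symm_apply]
        exact hx2
      · rw [← hΘ, Θ.apply_symm_apply]
    · rintro ⟨y, ⟨hy1, hy2⟩, rfl⟩
      refine ⟨?_, (hballiff y).2 hy2⟩
      change 0 < u (Θ.symm (Psi s η e y))
      rw [← hΘ, Θ.symm_apply_apply]
      exact hy1
  have hvs : tsupport (fun x => v x - u x) ⊆ B := by
    have h1 : tsupport (fun x => v x - u x) ⊆ Θ '' tsupport η := by
      refine closure_minimal ?_ (hηs.isCompact.image Θ.continuous).isClosed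
      intro x hx
      rw [Function.mem_support] at hx
      refine ⟨Θ.symm x, ?_, Θ.apply_symm_apply x⟩
      by_contra hc
      apply hx
      have h2 := hfix _ hc
      rw [← hΘ, Θ.apply_symm_apply] at h2
      simp only [hv, ← h2, sub_self]
    refine h1.trans ?_
    rintro _ ⟨y, hy, rfl⟩
    rw [hΘ]
    exact hinB y hy
  have hvL : LocallyLipschitz v := by
    obtain ⟨C', hC'⟩ := h.lipschitz
    exact (hC'.comp (Psi_inv_lipschitz hK hsK hΘ)).locallyLipschitz
  have hmin := hm R v hvL hv0 hvs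
  -- the derivative of the competitor
  have hder : ∀ y ∈ Pos u, ‖fderiv ℝ v (Psi s η e y)‖ ^ 2 =
      g y - 2 * s * (W1 y / (1 + s * D y)) * T y +
        s ^ 2 * (W1 y / (1 + s * D y)) ^ 2 * N y := by
    intro y hy
    have hu : HasFDerivAt u (fderiv ℝ w y) y := by
      have hw : HasFDerivAt w (fderiv ℝ w y) y :=
        ((h.smoothAt (h.pos_sub hy)).differentiableAt (by simp)).hasFDerivAt
      exact hw.congr_of_eventuallyEq (h.eventually_eq hy).symm
    have hne : 1 + s * fderiv ℝ η y e ≠ 0 := by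
      have := hdetp y
      simp only [hD] at this
      linarith
    rw [norm_fderiv_sq]
    have h1 : ∀ i, pd i v (Psi s η e y) = pd i w y - s * (W1 y / (1 + s * D y)) * pd i η y := by
      intro i
      exact fderiv_deformed ((hη.differentiable (by simp)) y) hΘ (fun x => rfl) hu hne _
    have h2 : ∀ i, pd i v (Psi s η e y) ^ 2 = pd i w y ^ 2 -
        2 * s * (W1 y / (1 + s * D y)) * (pd i w y * pd i η y) +
        s ^ 2 * (W1 y / (1 + s * D y)) ^ 2 * pd i η y ^ 2 := by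
      intro i
      rw [h1 i]
      ring
    simp only [h2, Finset.sum_add_distrib, Finset.sum_sub_distrib, ← Finset.mul_sum, hg, hT, hN]
  have hjac : ∀ y ∈ Pos u ∩ B, |(dPsi s η e y).det| • (‖fderiv ℝ v (Psi s η e y)‖ ^ 2 + 1) =
      (g y + 1) + (s * ((g y + 1) * D y - 2 * W1 y * T y) +
        s ^ 2 * (W1 y ^ 2 * N y / (1 + s * D y))) := by
    intro y hy
    have hp : 0 < 1 + s * D y := by
      have := hdetp y
      linarith
    rw [dPsi_det, smul_eq_mul, hder y hy.1]
    change |1 + s * D y| * _ = _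
    rw [abs_of_pos hp]
    field_simp
    ring
  have i1 : IntegrableOn (fun x => g x + 1) (Pos u ∩ B) :=
    h.int_gw1 hPB inter_subset_left (fin_ball (Pos u) R)
  have i2 := (iA (Pos u ∩ B) hPB inter_subset_left).const_mul s
  have i3 : IntegrableOn (fun y => W1 y ^ 2 * N y / (1 + s * D y)) (Pos u ∩ B) := by
    refine h.integrableOn_supp hηs h0 ?_ ?_ hPB inter_subset_left
    · refine ((hWc.pow 2).mul hNc.continuousOn).div
        (continuousOn_const.add (continuousOn_const.mul hDc.continuousOn)) ?_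
      intro x _
      have := hdetp x
      linarith
    · intro x _ hx
      rw [hNz x hx]
      simp
  have i6 : IntegrableOn (fun y => s * ((g y + 1) * D y - 2 * W1 y * T y) +
        s ^ 2 * (W1 y ^ 2 * N y / (1 + s * D y))) (Pos u ∩ B) := i2.add (i3.const_mul _)
  have i4 : IntegrableOn (fun y => (g y + 1) + (s * ((g y + 1) * D y - 2 * W1 y * T y) +
        s ^ 2 * (W1 y ^ 2 * N y / (1 + s * D y)))) (Pos u ∩ B) := i1.add i6
  have hinj : InjOn (Psi s η e) (Pos u ∩ B) := by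
    rw [← hΘ']
    exact Θ.injective.injOn
  have hdw : ∀ x ∈ Pos u ∩ B, HasFDerivWithinAt (Psi s η e) (dPsi s η e x) (Pos u ∩ B) x :=
    fun x _ => (Psi_hasFDerivAt ((hη.differentiable (by simp)) x)).hasFDerivWithinAt
  have i5 : IntegrableOn (fun x => ‖fderiv ℝ v x‖ ^ 2 + 1) (Pos v ∩ B) := by
    rw [himg, integrableOn_image_iff_integrableOn_abs_det_fderiv_smul volume hPB hdw hinj]
    exact i4.congr_fun (fun y hy => (hjac y hy).symm) hPB
  have ev := energy_eq (B := B) (g := fun x => ‖fderiv ℝ v x‖ ^ 2) hv0 hvPm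
    (fun x _ => rfl) i5
  rw [h.energy_self R, ev, ENNReal.ofReal_le_ofReal_iff (by
    refine integral_nonneg fun x => ?_
    positivity), himg,
    integral_image_eq_integral_abs_det_fderiv_smul volume hPB hdw hinj,
    setIntegral_congr_fun hPB hjac, integral_add i1 i6,
    integral_add i2 (i3.const_mul _), integral_const_mul, integral_const_mul] at hmin
  have e1 : ∫ x in Pos u ∩ B, ((g x + 1) * D x - 2 * W1 x * T x) = I := by
    refine (setIntegral_eq_of_subset_of_forall_sdiff_eq_zero hPo inter_subset_left ?_).symm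
    rintro x ⟨hx1, hx2⟩
    have hx : x ∉ tsupport η := fun hs => hx2 ⟨hx1, hsB hs⟩
    have h1 : D x = 0 := hDz x hx e
    rw [h1, hTz x hx]
    ring
  have e2 : ∫ x in Pos u ∩ B, W1 x ^ 2 * N x / (1 + s * D x) ≤ C := by
    have h1 : ∫ x in Pos u ∩ B, W1 x ^ 2 * N x / (1 + s * D x) ≤
        ∫ x in Pos u ∩ B, 2 * (W1 x ^ 2 * N x) := by
      refine setIntegral_mono_on i3 ((iC _ hPB inter_subset_left).const_mul 2) hPB ?_
      intro x _
      have hp := hdetp x
      have h2 : 0 ≤ W1 x ^ 2 * N x := mul_nonneg (sq_nonneg _) (hN0 x)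
      rw [div_le_iff₀ (by linarith)]
      nlinarith
    have h2 : ∫ x in Pos u ∩ B, 2 * (W1 x ^ 2 * N x) ≤ C := by
      rw [integral_const_mul, hC]
      refine mul_le_mul_of_nonneg_left ?_ (by norm_num)
      refine setIntegral_mono_set (iC _ hPo subset_rfl) ?_ inter_subset_left.eventuallyLE
      filter_upwards with x
      exact mul_nonneg (sq_nonneg _) (hN0 x)
    exact h1.trans h2
  rw [e1] at hmin
  have h3 := mul_le_mul_of_nonneg_left e2 (sq_nonneg s)
  have h4 : (0 : ℝ) ≤ s * I + s ^ 2 * ∫ x in Pos u ∩ B, W1 x ^ 2 * N x / (1 + s * D x) := by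
    linarith
  linarith

end Cone0

end Vale.Agent.P098
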